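import Vale.Agent.P141.H505.Chg

/-!
# P141, line (A): the node inequalities of a moving slot, all levels at once

`SG μ J X = ∑_(j ≤ J) (μ / 4 ^ j)⁻¹ GX ((μ / 4 ^ j) X)`. The first order terms of all levels are
absorbed by the defects of the higher levels, node by node.
-/

namespace Vale.Agent.P141.H505

open Finset Matrix Vale.Agent.P075

noncomputable section

variable {n m : Type*} [Fintype n] [DecidableEq n] [Fintype m] [DecidableEq m]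

/-- energy of all levels -/
def SG (μ : ℝ) (J : ℕ) (X : Matrix n n ℝ) : ℝ :=
  ∑ j ∈ range (J + 1), (μ / 4 ^ j)⁻¹ * GX ((μ / 4 ^ j) • X)

/-- row defects of all levels -/
def SD (μ : ℝ) (J : ℕ) (X₀ X₁ : Matrix n n ℝ) : ℝ :=
  ∑ j ∈ range (J + 1), (μ / 4 ^ j)⁻¹ * (delt ((μ / 4 ^ j) • X₀) ((μ / 4 ^ j) • X₁)).trace

/-- column defects of all levels -/
def SC (μ : ℝ) (J : ℕ) (r X : Matrix n n ℝ) : ℝ :=
  ∑ j ∈ range (J + 1), (μ / 4 ^ j)⁻¹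
    * (phi ((μ / 4 ^ j) • X) * (r * phi ((μ / 4 ^ j) • X) * r)).trace

/-- the levels from `j` on are a part of all levels -/
theorem sL_shift_le (μ : ℝ) (J : ℕ) (X₀ X₁ : Matrix n n ℝ) {j : ℕ} (hj : j ≤ J) :
    sL (μ / 4 ^ j) (J - j) X₀ X₁ ≤ sL μ J X₀ X₁ := by
  unfold sL
  have e : ∀ i, μ / 4 ^ j / 4 ^ i = μ / 4 ^ (j + i) := by
    intro i; rw [pow_add]; field_simp
  simp only [e]
  rw [← Finset.sum_image (s := range (J - j + 1)) (g := fun i => j + i)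
    (f := fun i => Real.sqrt (μ / 4 ^ i) * nL (μ / 4 ^ i) X₀ X₁)
    (fun a _ b _ h => by simpa using h)]
  refine sum_le_sum_of_subset_of_nonneg ?_ fun i _ _ =>
    mul_nonneg (Real.sqrt_nonneg _) (nL_nonneg _ _ _)
  intro x hx
  obtain ⟨i, hi, rfl⟩ := mem_image.mp hx
  rw [mem_range] at hi ⊢
  omega

/-- `√μ |G_μ| ≤ √(μ⁻¹ tr delt)` -/
theorem sq_nL_le {X₀ X₁ : Matrix n n ℝ} (h0 : X₀.PosSemidef) (h1 : X₁.PosSemidef) {μ : ℝ}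
    (hμ : 0 < μ) : Real.sqrt μ * nL μ X₀ X₁
      ≤ Real.sqrt (μ⁻¹ * (delt (μ • X₀) (μ • X₁)).trace) := by
  have h := nL_le h0 h1 hμ
  rw [Real.sqrt_mul (inv_nonneg.mpr hμ.le), Real.sqrt_inv]
  have hs : 0 < Real.sqrt μ := Real.sqrt_pos.mpr hμ
  have hsq := Real.mul_self_sqrt hμ.le
  have e : Real.sqrt μ * nL μ X₀ X₁ = (Real.sqrt μ)⁻¹ * (μ * nL μ X₀ X₁) := by
    field_simp
    rw [pow_two, hsq, mul_comm]
  rw [e]
  exact mul_le_mul_of_nonneg_left h (inv_nonneg.mpr hs.le)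

/-- all first order terms together, absorbed by `D ≥` the row defects -/
theorem first_le {X₀ X₁ : Matrix n n ℝ} (h0 : X₀.PosSemidef) (h1 : X₁.PosSemidef) {μ : ℝ}
    (hμ : 0 < μ) (J : ℕ) (c0 : (1 - (μ / 4 ^ J) • X₀).PosSemidef)
    (c1 : (1 - (μ / 4 ^ J) • X₁).PosSemidef) (M : Matrix n n ℝ) (D : ℕ → ℝ)
    (hD : ∀ j, (delt ((μ / 4 ^ j) • X₀) ((μ / 4 ^ j) • X₁)).trace ≤ D j) :
    ∑ j ∈ range (J + 1), |2 * (Mᵀ * (dY X₀ X₁ - gL (μ / 4 ^ j) X₀ X₁)).trace|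
      ≤ (1 / 4) * ∑ j ∈ range (J + 1), (μ / 4 ^ j)⁻¹ * D j
        + 64 * ((J : ℝ) + 1) ^ 3 * wM M X₀ X₁ ^ 2 := by
  have hw := wM_nonneg M X₀ X₁
  have h4 : ∀ j : ℕ, 0 < μ / 4 ^ j := fun j => by positivity
  -- each level
  have a1 : ∀ j ∈ range (J + 1), |2 * (Mᵀ * (dY X₀ X₁ - gL (μ / 4 ^ j) X₀ X₁)).trace|
      ≤ 8 * wM M X₀ X₁ * sL μ J X₀ X₁ := by
    intro j hj
    have hj' : j ≤ J := by rw [mem_range] at hj; omega
    have e : μ / 4 ^ j / 4 ^ (J - j) = μ / 4 ^ J := by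
      rw [div_div, ← pow_add]
      congr 2
      omega
    have h := level_lemma h0 h1 (J - j) (h4 j) (by rw [e]; exact c0) (by rw [e]; exact c1) M
    have h2 := sL_shift_le μ J X₀ X₁ hj'
    rw [abs_mul, abs_of_pos (by norm_num : (0 : ℝ) < 2)]
    have h3 := mul_le_mul_of_nonneg_left h2 hw
    linarith
  have a2 := sum_le_sum a1
  rw [sum_const, card_range, nsmul_eq_mul] at a2
  -- Young
  have a3 : ∀ i ∈ range (J + 1), 8 * wM M X₀ X₁ * ((J : ℝ) + 1)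
      * (Real.sqrt (μ / 4 ^ i) * nL (μ / 4 ^ i) X₀ X₁)
      ≤ (1 / 4) * ((μ / 4 ^ i)⁻¹ * D i) + 64 * ((J : ℝ) + 1) ^ 2 * wM M X₀ X₁ ^ 2 := by
    intro i _
    have h := sq_nL_le h0 h1 (h4 i)
    have hd : 0 ≤ (delt ((μ / 4 ^ i) • X₀) ((μ / 4 ^ i) • X₁)).trace :=
      (delt_psd (smul_psd h0 (h4 i).le) (smul_psd h1 (h4 i).le)).trace_nonneg
    have hd2 : 0 ≤ (μ / 4 ^ i)⁻¹ * (delt ((μ / 4 ^ i) • X₀) ((μ / 4 ^ i) • X₁)).trace :=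
      mul_nonneg (inv_nonneg.mpr (h4 i).le) hd
    have hd3 : (μ / 4 ^ i)⁻¹ * (delt ((μ / 4 ^ i) • X₀) ((μ / 4 ^ i) • X₁)).trace
        ≤ (μ / 4 ^ i)⁻¹ * D i := mul_le_mul_of_nonneg_left (hD i) (inv_nonneg.mpr (h4 i).le)
    set S := Real.sqrt ((μ / 4 ^ i)⁻¹ * (delt ((μ / 4 ^ i) • X₀) ((μ / 4 ^ i) • X₁)).trace) with hS
    have hS2 : S * S = (μ / 4 ^ i)⁻¹ * (delt ((μ / 4 ^ i) • X₀) ((μ / 4 ^ i) • X₁)).trace :=
      Real.mul_self_sqrt hd2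
    have hJ : (0 : ℝ) ≤ 8 * wM M X₀ X₁ * ((J : ℝ) + 1) := by positivity
    have h5 := mul_le_mul_of_nonneg_left h hJ
    nlinarith [sq_nonneg (S / 2 - 8 * wM M X₀ X₁ * ((J : ℝ) + 1))]
  have a4 := sum_le_sum a3
  rw [← mul_sum, sum_add_distrib, ← mul_sum, sum_const, card_range, nsmul_eq_mul] at a4
  push_cast at a2 a4
  have e : sL μ J X₀ X₁ = ∑ i ∈ range (J + 1), Real.sqrt (μ / 4 ^ i) * nL (μ / 4 ^ i) X₀ X₁ := rfl
  rw [← e] at a4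
  calc _ ≤ ((J : ℝ) + 1) * (8 * wM M X₀ X₁ * sL μ J X₀ X₁) := a2
    _ = 8 * wM M X₀ X₁ * ((J : ℝ) + 1) * sL μ J X₀ X₁ := by ring
    _ ≤ _ := a4
    _ = _ := by ring

omit [DecidableEq n] in
theorem wM_sq_le {X₀ X₁ : Matrix n n ℝ} (h0 : X₀.PosSemidef) (h1 : X₁.PosSemidef)
    (M : Matrix n n ℝ) :
    wM M X₀ X₁ ^ 2 ≤ 2 * ((Mᵀ * X₀ * M).trace + (M * X₁ * Mᵀ).trace) := by
  have a := quad_nonneg h0 M
  have b := quad_nonneg h1 Mᵀ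
  rw [transpose_transpose] at b
  have ha := Real.mul_self_sqrt a
  have hb := Real.mul_self_sqrt b
  unfold wM
  nlinarith [sq_nonneg (Real.sqrt ((Mᵀ * X₀ * M).trace) - Real.sqrt ((M * X₁ * Mᵀ).trace))]

/-- `hdiff` at the level `μ` against `M` -/
theorem first_eq {X₀ X₁ : Matrix n n ℝ} (h0 : X₀.PosSemidef) (h1 : X₁.PosSemidef) {μ : ℝ}
    (hμ : 0 < μ) (M : Matrix n n ℝ) :
    μ⁻¹ * (2 * (Mᵀ * (dY (μ • X₀) (μ • X₁) - hdiff (μ • X₀) (μ • X₁))).trace)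
      = 2 * (Mᵀ * (dY X₀ X₁ - gL μ X₀ X₁)).trace := by
  rw [← gL_eq h0 h1 hμ.le]
  have e : dY (μ • X₀) (μ • X₁) - μ • gL μ X₀ X₁ = μ • (dY X₀ X₁ - gL μ X₀ X₁) := by
    simp only [dY]; module
  rw [e, Matrix.mul_smul, trace_smul, smul_eq_mul]
  field_simp

/-- **Node inequality, outer step, all levels.** -/
theorem SG_outer {X₀ X₁ : Matrix n n ℝ} (h0 : X₀.PosSemidef) (h1 : X₁.PosSemidef) {μ : ℝ}
    (hμ : 0 < μ) (J : ℕ) (c0 : (1 - (μ / 4 ^ J) • X₀).PosSemidef)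
    (c1 : (1 - (μ / 4 ^ J) • X₁).PosSemidef) (M : Matrix n n ℝ) :
    SG μ J ((1 / 2 : ℝ) • (X₀ + X₁)) + (1 / 4) * SD μ J X₀ X₁
      ≤ (1 / 2) * (SG μ J ((1 + M) * X₀ * (1 + M)ᵀ) + SG μ J ((1 - M) * X₁ * (1 - M)ᵀ))
        + 128 * ((J : ℝ) + 1) ^ 3 * ((Mᵀ * X₀ * M).trace + (M * X₁ * Mᵀ).trace) := by
  have h4 : ∀ j : ℕ, 0 < μ / 4 ^ j := fun j => by positivity
  have hF := first_le h0 h1 hμ J c0 c1 M
    (fun j => (delt ((μ / 4 ^ j) • X₀) ((μ / 4 ^ j) • X₁)).trace) (fun j => le_rfl)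
  have hw := wM_sq_le h0 h1 M
  -- one level
  have hl : ∀ j ∈ range (J + 1),
      (μ / 4 ^ j)⁻¹ * GX ((μ / 4 ^ j) • ((1 / 2 : ℝ) • (X₀ + X₁)))
        + (1 / 2) * ((μ / 4 ^ j)⁻¹ * (delt ((μ / 4 ^ j) • X₀) ((μ / 4 ^ j) • X₁)).trace)
      ≤ (1 / 2) * ((μ / 4 ^ j)⁻¹ * GX ((μ / 4 ^ j) • ((1 + M) * X₀ * (1 + M)ᵀ)))
        + (1 / 2) * ((μ / 4 ^ j)⁻¹ * GX ((μ / 4 ^ j) • ((1 - M) * X₁ * (1 - M)ᵀ)))
        + |2 * (Mᵀ * (dY X₀ X₁ - gL (μ / 4 ^ j) X₀ X₁)).trace| := by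
    intro j _
    have p0 := smul_psd h0 (h4 j).le
    have p1 := smul_psd h1 (h4 j).le
    have r1 := R.GX_row p0 p1
    have r2 := GX_change_odd p0 p1 M
    have e0 : (1 / 2 : ℝ) • ((μ / 4 ^ j) • X₀ + (μ / 4 ^ j) • X₁)
        = (μ / 4 ^ j) • ((1 / 2 : ℝ) • (X₀ + X₁)) := by module
    have e1 : (1 + M) * ((μ / 4 ^ j) • X₀) * (1 + M)ᵀ
        = (μ / 4 ^ j) • ((1 + M) * X₀ * (1 + M)ᵀ) := by
      rw [Matrix.mul_smul, Matrix.smul_mul]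
    have e2 : (1 - M) * ((μ / 4 ^ j) • X₁) * (1 - M)ᵀ
        = (μ / 4 ^ j) • ((1 - M) * X₁ * (1 - M)ᵀ) := by
      rw [Matrix.mul_smul, Matrix.smul_mul]
    rw [e0] at r1
    rw [e1, e2] at r2
    have e3 := first_eq h0 h1 (h4 j) M
    have hi : 0 ≤ (μ / 4 ^ j)⁻¹ := inv_nonneg.mpr (h4 j).le
    have r3 := mul_le_mul_of_nonneg_left (add_le_add r1 r2) hi
    have e4 := neg_abs_le (2 * (Mᵀ * (dY X₀ X₁ - gL (μ / 4 ^ j) X₀ X₁)).trace)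
    rw [← e3] at e4 ⊢
    linarith
  have hs := sum_le_sum hl
  simp only [sum_add_distrib, ← mul_sum] at hs
  have hJ : (0 : ℝ) ≤ 64 * ((J : ℝ) + 1) ^ 3 := by positivity
  have hw2 := mul_le_mul_of_nonneg_left hw hJ
  have f1 : SG μ J ((1 / 2 : ℝ) • (X₀ + X₁))
      = ∑ j ∈ range (J + 1), (μ / 4 ^ j)⁻¹ * GX ((μ / 4 ^ j) • ((1 / 2 : ℝ) • (X₀ + X₁))) := rfl
  have f2 : SD μ J X₀ X₁ = ∑ j ∈ range (J + 1),
      (μ / 4 ^ j)⁻¹ * (delt ((μ / 4 ^ j) • X₀) ((μ / 4 ^ j) • X₁)).trace := rfl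
  have f3 : SG μ J ((1 + M) * X₀ * (1 + M)ᵀ)
      = ∑ j ∈ range (J + 1), (μ / 4 ^ j)⁻¹ * GX ((μ / 4 ^ j) • ((1 + M) * X₀ * (1 + M)ᵀ)) := rfl
  have f4 : SG μ J ((1 - M) * X₁ * (1 - M)ᵀ)
      = ∑ j ∈ range (J + 1), (μ / 4 ^ j)⁻¹ * GX ((μ / 4 ^ j) • ((1 - M) * X₁ * (1 - M)ᵀ)) := rfl
  rw [← f1, ← f2, ← f3, ← f4] at hs
  rw [← f2] at hF
  linarith

section mid

variable {r : Matrix n n ℝ} (hr : rᵀ = r) (hr2 : r * r = 1)

include hr hr2 in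
/-- pinching -/
theorem GX_pinch {X : Matrix n n ℝ} (hX : X.PosSemidef) :
    GX X + (1 / 2) * (phi X * (r * phi X * r)).trace ≤ (1 / 2) * GX (X + r * X * r) := by
  have hX' := refl_psd hX hr
  have ea : phi (r * X * r) = r * phi X * r := phi_refl hX hr hr2
  have h1 := ld_add_le hX hX'
  have hldr : ld (r * X * r) = ld X := by
    rw [ld, ld]
    congr 1
    have : (1 : Matrix n n ℝ) + r * X * r = r * (1 + X) * r := by
      rw [Matrix.mul_add, Matrix.add_mul, Matrix.mul_one, hr2]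
    rw [this, det_mul, det_mul]
    have hd : r.det * r.det = 1 := by rw [← det_mul, hr2, det_one]
    calc r.det * (1 + X).det * r.det = (r.det * r.det) * (1 + X).det := by ring
      _ = (1 + X).det := by rw [hd, one_mul]
  have htr : (r * X * r).trace = X.trace := by
    rw [Matrix.mul_assoc, trace_mul_comm, Matrix.mul_assoc, hr2, Matrix.mul_one]
  rw [hldr, ea] at h1
  simp only [GX, trace_add, htr]
  linarith

include hr hr2 in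
/-- **Node inequality, middle step, all levels.** -/
theorem SG_mid (C : Matrix m n ℝ) {μ : ℝ} (hμ : 0 < μ) (J : ℕ)
    (c0 : (1 - (μ / 4 ^ J) • (C * (1 + r) * Cᵀ)).PosSemidef)
    (c1 : (1 - (μ / 4 ^ J) • (C * (1 - r) * Cᵀ)).PosSemidef) (M : Matrix m m ℝ) :
    SG μ J (Cᵀ * C) + (1 / 4) * SC μ J r (Cᵀ * C)
      ≤ (1 / 2) * SG μ J ((C + M * C * r)ᵀ * (C + M * C * r)
          + r * ((C + M * C * r)ᵀ * (C + M * C * r)) * r)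
        + 256 * ((J : ℝ) + 1) ^ 3
          * (((Cᵀ * M)ᵀ * (Cᵀ * M)).trace + ((Cᵀ * Mᵀ)ᵀ * (Cᵀ * Mᵀ)).trace) := by
  have h4 : ∀ j : ℕ, 0 < μ / 4 ^ j := fun j => by positivity
  have h0 := plus_psd hr hr2 C
  have h1 := minus_psd hr hr2 C
  have hX : (Cᵀ * C).PosSemidef := psd_transpose_mul C
  set Y0 := C * (1 + r) * Cᵀ with hY0
  set Y1 := C * (1 - r) * Cᵀ with hY1
  set X' := (C + M * C * r)ᵀ * (C + M * C * r) with hX'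
  have sC : ∀ ν : ℝ, 0 < ν → (Real.sqrt ν • C)ᵀ * (Real.sqrt ν • C) = ν • (Cᵀ * C) := by
    intro ν hν
    rw [transpose_smul, Matrix.smul_mul, Matrix.mul_smul, smul_smul, Real.mul_self_sqrt hν.le]
  have sY0 : ∀ ν : ℝ, 0 < ν → (Real.sqrt ν • C) * (1 + r) * (Real.sqrt ν • C)ᵀ = ν • Y0 := by
    intro ν hν
    rw [transpose_smul, Matrix.mul_smul, Matrix.smul_mul, Matrix.smul_mul, smul_smul,
      Real.mul_self_sqrt hν.le]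
  have sY1 : ∀ ν : ℝ, 0 < ν → (Real.sqrt ν • C) * (1 - r) * (Real.sqrt ν • C)ᵀ = ν • Y1 := by
    intro ν hν
    rw [transpose_smul, Matrix.mul_smul, Matrix.smul_mul, Matrix.smul_mul, smul_smul,
      Real.mul_self_sqrt hν.le]
  have sX' : ∀ ν : ℝ, 0 < ν → (Real.sqrt ν • C + M * (Real.sqrt ν • C) * r)ᵀ
      * (Real.sqrt ν • C + M * (Real.sqrt ν • C) * r) = ν • X' := by
    intro ν hν
    have e : Real.sqrt ν • C + M * (Real.sqrt ν • C) * r = Real.sqrt ν • (C + M * C * r) := by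
      rw [Matrix.mul_smul, Matrix.smul_mul, smul_add]
    rw [e, transpose_smul, Matrix.smul_mul, Matrix.mul_smul, smul_smul, Real.mul_self_sqrt hν.le]
  have hF := first_le h0 h1 hμ J c0 c1 M
    (fun j => (phi ((μ / 4 ^ j) • (Cᵀ * C)) * (r * phi ((μ / 4 ^ j) • (Cᵀ * C)) * r)).trace)
    (fun j => by
      have h := delt_le_cd hr hr2 (Real.sqrt (μ / 4 ^ j) • C)
      rwa [sC _ (h4 j), sY0 _ (h4 j), sY1 _ (h4 j)] at h)
  have hw := wM_sq_le h0 h1 M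
  -- one level
  have hl : ∀ j ∈ range (J + 1),
      (μ / 4 ^ j)⁻¹ * GX ((μ / 4 ^ j) • (Cᵀ * C))
        + (1 / 2) * ((μ / 4 ^ j)⁻¹
          * (phi ((μ / 4 ^ j) • (Cᵀ * C)) * (r * phi ((μ / 4 ^ j) • (Cᵀ * C)) * r)).trace)
      ≤ (1 / 2) * ((μ / 4 ^ j)⁻¹ * GX ((μ / 4 ^ j) • (X' + r * X' * r)))
        + |2 * (Mᵀ * (dY Y0 Y1 - gL (μ / 4 ^ j) Y0 Y1)).trace| := by
    intro j _
    have r1 := GX_pinch hr hr2 (smul_psd hX (h4 j).le)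
    have r2 := mid_change hr hr2 (Real.sqrt (μ / 4 ^ j) • C) M
    rw [sC _ (h4 j), sY0 _ (h4 j), sY1 _ (h4 j), sX' _ (h4 j)] at r2
    have e0 : (μ / 4 ^ j) • X' + r * ((μ / 4 ^ j) • X') * r
        = (μ / 4 ^ j) • (X' + r * X' * r) := by
      rw [Matrix.mul_smul, Matrix.smul_mul, smul_add]
    rw [e0] at r2
    have e3 := first_eq h0 h1 (h4 j) M
    have hi : 0 ≤ (μ / 4 ^ j)⁻¹ := inv_nonneg.mpr (h4 j).le
    have r3 := mul_le_mul_of_nonneg_left (add_le_add r1 r2) hi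
    have e4 := neg_abs_le (2 * (Mᵀ * (dY Y0 Y1 - gL (μ / 4 ^ j) Y0 Y1)).trace)
    rw [← e3] at e4 ⊢
    linarith
  have hs := sum_le_sum hl
  simp only [sum_add_distrib, ← mul_sum] at hs
  have hJ : (0 : ℝ) ≤ 64 * ((J : ℝ) + 1) ^ 3 := by positivity
  -- the weights
  have hb : ∀ A : Matrix m m ℝ, (Aᵀ * Y0 * A).trace ≤ 2 * ((Cᵀ * A)ᵀ * (Cᵀ * A)).trace
      ∧ (Aᵀ * Y1 * A).trace ≤ 2 * ((Cᵀ * A)ᵀ * (Cᵀ * A)).trace := by
    intro A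
    have q0 := quad_nonneg h0 A
    have q1 := quad_nonneg h1 A
    have e : (Aᵀ * Y0 * A).trace + (Aᵀ * Y1 * A).trace = 2 * ((Cᵀ * A)ᵀ * (Cᵀ * A)).trace := by
      have : Aᵀ * Y0 * A + Aᵀ * Y1 * A = (2 : ℝ) • ((Cᵀ * A)ᵀ * (Cᵀ * A)) := by
        rw [hY0, hY1, transpose_mul, transpose_transpose]
        simp only [Matrix.mul_add, Matrix.mul_sub, Matrix.add_mul, Matrix.sub_mul, Matrix.mul_one,
          Matrix.mul_assoc, two_smul]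
        abel
      rw [← trace_add, this, trace_smul, smul_eq_mul]
    constructor <;> linarith
  have hb0 := (hb M).1
  have hb1 := (hb Mᵀ).2
  rw [transpose_transpose] at hb1
  have hw2 := mul_le_mul_of_nonneg_left
    (hw.trans (mul_le_mul_of_nonneg_left (add_le_add hb0 hb1) (by norm_num : (0 : ℝ) ≤ 2))) hJ
  have f1 : SG μ J (Cᵀ * C)
      = ∑ j ∈ range (J + 1), (μ / 4 ^ j)⁻¹ * GX ((μ / 4 ^ j) • (Cᵀ * C)) := rfl
  have f2 : SC μ J r (Cᵀ * C) = ∑ j ∈ range (J + 1), (μ / 4 ^ j)⁻¹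
      * (phi ((μ / 4 ^ j) • (Cᵀ * C)) * (r * phi ((μ / 4 ^ j) • (Cᵀ * C)) * r)).trace := rfl
  have f3 : SG μ J (X' + r * X' * r)
      = ∑ j ∈ range (J + 1), (μ / 4 ^ j)⁻¹ * GX ((μ / 4 ^ j) • (X' + r * X' * r)) := rfl
  rw [← f1, ← f2, ← f3] at hs
  rw [← f2] at hF
  linarith

end mid

end

end Vale.Agent.P141.H505
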