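import Vale.Agent.P141.H389.RealAC
import Vale.Agent.P141.H585.PairCh
import Vale.Agent.P141.H585.PairO
import Vale.Agent.P141.PL.H804.Joint
import Vale.Agent.P141.H505.Node

/-!
# P141, line (A): skeleton of the moving stack, version 1 (path families, vector slots)

`x` = x1, `z` = x3, `y` = x2; roots `r1 r2 r3`. Families at time `k`: `A k y z`, `b k x y`,
`c k x z` (`b`, `c` with labels `κ`); the form is `A (b · G c)`, `G` symmetric and moving with the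
cell of `z`. Hub x3: middle x3. Hub x1: middle x1 with the labels of the stack.
-/

namespace Vale.Agent.P141.H505.Sk1

open Finset Matrix Vale.Agent.P141.PL Vale.Agent.P141.PL.H103 Vale.Agent.P141.H103
open Vale.Agent.P141.PL.H804 Vale.Agent.P141.PL.H588
open Vale.Agent.P141.H389 Vale.Agent.P141.H258 Vale.Agent.P141.H585.PairCh
open Vale.Agent.P141.H585.PairO (mh)
open Vale.Agent.P075

noncomputable section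

open scoped Classical

/-! ## 1. Families

No structure of the paths is assumed: every change of a family on a square is paid by the family
of time `k + 1` on that square. -/

/-- the square `(n, m)` of scale `k` changes at `k` -/
def Ch {α : Type} (F : ℕ → ℤ → ℤ → α) (k : ℕ) (n m : ℤ) : Prop :=
  ∃ x ∈ iv k n, ∃ z ∈ iv k m, F (k + 1) x z ≠ F k x z

variable {κ : Type} [Fintype κ] [DecidableEq κ]

/-- The weight of the slot at the row `x` and the cell `m` of scale `k` of `z`; children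
`Th + Nn ± M`, `Nm` the negative part of the drift. TF : `Th = wt β R`, `M = R D + D R`,
`Nn = D * D`, `Nm = 0`. TI : `Th = β • 1 + Theta`, `M = a`, `Nn = -eb`, `Nm = eb`. -/
structure Wgt (N : ℕ) (β : ℝ) (Th Nn M Nm : ℤ → ℕ → ℤ → Matrix κ κ ℝ) : Prop where
  pos : 0 < β
  ge : ∀ x k m, (Th x k m - β • (1 : Matrix κ κ ℝ)).PosSemidef
  wf : Wf N Th Nn M Nm

/-- hub x3: Gram matrix of the stack `Th ^ (1/2) c` -/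
def W3 (c : ℤ → ℤ → κ → ℝ) (Th : ℤ → ℕ → ℤ → Matrix κ κ ℝ) (k : ℕ) :
    ℕ → ℤ → ℤ → Matrix (Ix k) (Ix k) ℝ :=
  fun a n m => QW a k c (fun x => Th x k m) n m

/-- local energy of the slot -/
def eT (c : ℤ → ℤ → κ → ℝ) (Th : ℤ → ℕ → ℤ → Matrix κ κ ℝ) (k : ℕ) (x z : ℤ) : ℝ :=
  c x z ⬝ᵥ Th x k (ix k z) *ᵥ c x z

/-- change of the weight from the parent (scale `k + 1`) to the child (scale `k`) of `z` -/
def dTh (Th : ℤ → ℕ → ℤ → Matrix κ κ ℝ) (k : ℕ) (x z : ℤ) : Matrix κ κ ℝ :=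
  Th x k (ix k z) - Th x (k + 1) (ix (k + 1) z)

/-- local quadratic variation, parent `Th⁻¹` on `M`, child `Th⁻¹` on the change -/
def eM (c : ℤ → ℤ → κ → ℝ) (Th M : ℤ → ℕ → ℤ → Matrix κ κ ℝ) (k : ℕ) (x z : ℤ) : ℝ :=
  (M x (k + 1) (ix (k + 1) z) *ᵥ c x z) ⬝ᵥ (Th x (k + 1) (ix (k + 1) z))⁻¹ *ᵥ
      (M x (k + 1) (ix (k + 1) z) *ᵥ c x z)
    + (dTh Th k x z *ᵥ c x z) ⬝ᵥ (Th x k (ix k z))⁻¹ *ᵥ (dTh Th k x z *ᵥ c x z)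

/-- **Numbers of the slot.** `E` bounds everything; `A`, `b` enter by the cross births. -/
structure Num (k₀ N : ℕ) (r1 r2 r3 : ℤ) (pl : ℕ → ℤ) (A : ℕ → ℤ → ℤ → ℝ)
    (b c : ℕ → ℤ → ℤ → κ → ℝ) (Th M Nm : ℤ → ℕ → ℤ → Matrix κ κ ℝ) (E cC : ℝ) : Prop where
  /-- energy at every scale (functions of time `k` and `k + 1` at scale `k`) -/
  en : ∀ k, k₀ ≤ k → k ≤ N → ∀ j, k ≤ j → j ≤ k + 1 →
    ∑ x ∈ iv N r1, ∑ z ∈ iv N r3, eT (c j) Th k x z ≤ E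
  /-- quadratic variation -/
  var : ∑ k ∈ Ico k₀ N, ∑ x ∈ iv N r1, ∑ z ∈ iv N r3, eM (c (k + 1)) Th M k x z ≤ E
  /-- negative drift -/
  dr : ∑ k ∈ Ico k₀ N, ∑ x ∈ iv N r1, ∑ z ∈ iv N r3,
    c (k + 1) x z ⬝ᵥ Nm x (k + 1) (ix (k + 1) z) *ᵥ c (k + 1) x z ≤ E
  /-- born energy of the stack -/
  born : ∑ k ∈ Ico k₀ N, ∑ x ∈ iv N r1, ∑ z ∈ iv N r3,
    (if Ch c k (ix k x) (ix k z) then eT (c (k + 1)) Th k x z else 0) ≤ E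
  /-- energy of the stack on the nodes where the square of one of the three slots changes -/
  cross : ∑ k ∈ Ico k₀ N, GW N r2 r3 r1 k (pl k) (fun n2 n1 m =>
    if Ch A k n2 m ∨ Ch b k n1 n2 ∨ Ch c k n1 m then (W3 (c (k + 1)) Th k k n1 m).trace
    else 0) ≤ E
  /-- cap -/
  cap : ∀ k a n m, k₀ ≤ k → k₀ ≤ a → k ≤ N → a ≤ N → ∀ j, min k a ≤ j → j ≤ min k a + 1 →
    n ∈ iv (N - a) r1 → m ∈ iv (N - k) r3 →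
    (cC ^ 2 • (1 : Matrix (Ix k) (Ix k) ℝ) - W3 (c j) Th k a n m).PosSemidef

/-- **Numbers of the scalar slot `A`**: cap `t2`, energies, mass on the nodes where `c` changes. -/
structure NumA (k₀ N : ℕ) (r1 r2 r3 : ℤ) (pl : ℕ → ℤ) (A : ℕ → ℤ → ℤ → ℝ)
    (c : ℕ → ℤ → ℤ → κ → ℝ) (t2 EA : ℝ) : Prop where
  cap : ∀ k a n m, k₀ ≤ k → k ≤ a → a ≤ N → ∀ j, k ≤ j → j ≤ k + 1 → n ∈ iv (N - a) r2 →
    m ∈ iv (N - k) r3 → (t2 • (1 : Matrix (Ix k) (Ix k) ℝ) - PA (A j) k a n m).PosSemidef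
  en : ∀ k, k ≤ N → ∑ y ∈ iv N r2, ∑ z ∈ iv N r3, A k y z ^ 2 ≤ EA
  born : ∑ k ∈ Ico k₀ N, ∑ y ∈ iv N r2, ∑ z ∈ iv N r3,
    (if Ch A k (ix k y) (ix k z) then A (k + 1) y z ^ 2 else 0) ≤ EA
  cr : ∑ k ∈ Ico k₀ N, GW N r2 r3 r1 k (pl k) (fun n2 n1 m =>
    if Ch c k n1 m then (PA (A (k + 1)) k k n2 m).trace else 0) ≤ EA

/-! ## 2. The pair `(A, C~)`, raw partner -/

/-- **L4r**: the raw pair sum at every level `x2` of the stack. -/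
def PairACr (K : ℝ) : Prop :=
  ∀ {κ : Type} [Fintype κ] [DecidableEq κ] (k₀ N : ℕ) (r1 r2 r3 : ℤ) (pl : ℕ → ℤ) (β : ℝ)
    (A : ℕ → ℤ → ℤ → ℝ) (b c : ℕ → ℤ → ℤ → κ → ℝ) (Th Nn M Nm : ℤ → ℕ → ℤ → Matrix κ κ ℝ)
    (E EA cC t2 x2 : ℝ) (J : ℕ), k₀ ≤ N → Pl pl → Wgt N β Th Nn M Nm →
    Num k₀ N r1 r2 r3 pl A b c Th M Nm E cC → NumA k₀ N r1 r2 r3 pl A c t2 EA →
    0 < x2 → 0 < t2 → cC ^ 2 ≤ 4 ^ J * x2 →
    ∑ k ∈ Ico k₀ N, GW N r2 r3 r1 (k + 1) (pl (k + 1)) (fun n2 n1 m =>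
      (PA (A (k + 1)) (k + 1) (k + 1) n2 m * (hd (k + 1) *
        phs x2 (W3 (c (k + 1)) Th (k + 1) (k + 1) n1 m) * hd (k + 1))).trace)
      ≤ K * (J + 1) ^ 3 * (√(x2 * E * (t2 * EA)) + t2 * E)

/-! ## 3. Hub x1 -/

/-- Factor `L` of the weight, slot matrix `G` (the form is `b · G c`), a fixed `V` with
`Lᵀ V = G`; children of `G` : `G + gn ± gm`. TF : `L = (R ; √β)`, `V = (1 ; 0)`, `G = R`,
`gm = D`, `gn = 0`. TI : `L = (c₁ Theta ; (Th - c₁² Theta²) ^ (1/2))`, `V = (1 ; 0) / c₁`,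
`c₁² = 1/2`, `G = Theta`, `gm = a`, `gn = - eb`. The drift `gn` is paid in first order by `Nm`. -/
structure Slot {l : Type} [Fintype l] [DecidableEq l] (N : ℕ)
    (Th Nm : ℤ → ℕ → ℤ → Matrix κ κ ℝ) (L : ℤ → ℕ → ℤ → Matrix l κ ℝ) (V : Matrix l κ ℝ)
    (G gn gm : ℤ → ℕ → ℤ → Matrix κ κ ℝ) : Prop where
  LtL : ∀ x k m, (L x k m)ᵀ * L x k m = Th x k m
  LtV : ∀ x k m, (L x k m)ᵀ * V = G x k m
  V1 : ((2 : ℝ) • (1 : Matrix κ κ ℝ) - Vᵀ * V).PosSemidef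
  dft : ∀ x k m (p q : κ → ℝ),
    (p ⬝ᵥ gn x k m *ᵥ q) ^ 2 ≤ (p ⬝ᵥ Nm x k m *ᵥ p) * (q ⬝ᵥ Nm x k m *ᵥ q)
  left : ∀ x k m, k < N → G x k (2 * m) = G x (k + 1) m + gn x (k + 1) m + gm x (k + 1) m
  right : ∀ x k m, k < N → G x k (2 * m + 1) = G x (k + 1) m + gn x (k + 1) m - gm x (k + 1) m

/-- hub x1, x1-cell `m`, x3-cell `n` : Gram matrix of the stack over `z` -/
def W1 {l : Type} (c : ℤ → ℤ → κ → ℝ) (L : ℤ → ℕ → ℤ → Matrix l κ ℝ) (k : ℕ) (n m : ℤ) :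
    Matrix (Ix k × l) (Ix k × l) ℝ := fun i j =>
  ((2 : ℝ) ^ k * 2 ^ k)⁻¹ * ∑ z ∈ iv k n,
    (L (2 ^ k * m + val k i.1) k n *ᵥ c (2 ^ k * m + val k i.1) z) i.2 *
      (L (2 ^ k * m + val k j.1) k n *ᵥ c (2 ^ k * m + val k j.1) z) j.2

/-- hub x1: Gram matrix of `B~ = V b` over `y` -/
def WB {l : Type} (b : ℤ → ℤ → κ → ℝ) (V : Matrix l κ ℝ) (k : ℕ) (n' m : ℤ) :
    Matrix (Ix k × l) (Ix k × l) ℝ := fun i j =>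
  ((2 : ℝ) ^ k * 2 ^ k)⁻¹ * ∑ y ∈ iv k n',
    (V *ᵥ b (2 ^ k * m + val k i.1) y) i.2 * (V *ᵥ b (2 ^ k * m + val k j.1) y) j.2

/-- **Hub x1: the numbers of all lags** (`z` is the outer variable, the weight moves with it:
functions of time `k` or `k + 1` against the weight of scale `k + l`), and the births at the
halves (outer cells of scale `k + 1`). -/
structure NumX (k₀ N : ℕ) (r1 r2 r3 : ℤ) (pl : ℕ → ℤ) (b c : ℕ → ℤ → ℤ → κ → ℝ)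
    (Th M Nm : ℤ → ℕ → ℤ → Matrix κ κ ℝ) (E : ℝ) : Prop where
  enX : ∀ k j, k₀ ≤ j → j ≤ k + 1 → k ≤ N →
    ∑ x ∈ iv N r1, ∑ z ∈ iv N r3, eT (c j) Th k x z ≤ E
  varX : ∀ l i, i ≤ 1 → ∑ k ∈ Ico k₀ (N - l), ∑ x ∈ iv N r1, ∑ z ∈ iv N r3,
    eM (c (k + i)) Th M (k + l) x z ≤ E
  drX : ∀ l i, i ≤ 1 → ∑ k ∈ Ico k₀ (N - l), ∑ x ∈ iv N r1, ∑ z ∈ iv N r3,
    c (k + i) x z ⬝ᵥ Nm x (k + l + 1) (ix (k + l + 1) z) *ᵥ c (k + i) x z ≤ E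
  bornX : ∀ l, ∑ k ∈ Ico k₀ N, (if k + l ≤ N then ∑ x ∈ iv N r1, ∑ z ∈ iv N r3,
    (if Ch c k (ix k x) (ix k z) then eT (c (k + 1)) Th (k + l) x z else 0) else 0) ≤ E
  crossH : ∑ k ∈ Ico k₀ N, GW N r2 r1 r3 (k + 1) (pl (k + 1)) (fun n2 n3 n1 =>
    mh (fun h => if (∃ i, (i = 2 * n2 ∨ i = 2 * n2 + 1) ∧ Ch b k h i) ∨
        (∃ i, (i = 2 * n3 ∨ i = 2 * n3 + 1) ∧ Ch c k h i) then
      ((2 : ℝ) ^ (k + 1) * 2 ^ k)⁻¹ * ∑ x ∈ iv k h, ∑ z ∈ iv (k + 1) n3,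
        eT (c (k + 1)) Th (k + 1) x z else 0) n1) ≤ E

/-- positive part of the drift (TF : `∑ |D c|²`, TI : 0) -/
def DpN (k₀ N : ℕ) (r1 r3 : ℤ) (c : ℕ → ℤ → ℤ → κ → ℝ) (Nn Nm : ℤ → ℕ → ℤ → Matrix κ κ ℝ)
    (E : ℝ) : Prop :=
  ∑ k ∈ Ico k₀ N, ∑ x ∈ iv N r1, ∑ z ∈ iv N r3,
    c (k + 1) x z ⬝ᵥ (Nn x (k + 1) (ix (k + 1) z) + Nm x (k + 1) (ix (k + 1) z)) *ᵥ
      c (k + 1) x z ≤ E

/-- `hd` with labels -/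
def hdl (l : Type) [DecidableEq l] (k : ℕ) : Matrix (Ix k × l) (Ix k × l) ℝ := fun i j =>
  if i.2 = j.2 then hd k i.1 j.1 else 0

/-- **Numbers of the vector slot `b`.** -/
structure NumB (k₀ N : ℕ) (r1 r2 r3 : ℤ) (pl : ℕ → ℤ) (b c : ℕ → ℤ → ℤ → κ → ℝ)
    (β : ℝ) (gm Nm : ℤ → ℕ → ℤ → Matrix κ κ ℝ) (t2 EB : ℝ) : Prop where
  /-- cap of the Gram matrix over `y` on (x1, label) -/
  cap : ∀ k a n m, k₀ ≤ k → k ≤ a → a ≤ N → ∀ j, k ≤ j → j ≤ k + 1 → n ∈ iv (N - a) r2 →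
    m ∈ iv (N - k) r1 → (t2 • (1 : Matrix (Ix k × κ) (Ix k × κ) ℝ) - Matrix.of fun (i i' : Ix k × κ) =>
      ((2 : ℝ) ^ a * 2 ^ k)⁻¹ * ∑ y ∈ iv a n, b j (2 ^ k * m + val k i.1) y i.2 *
        b j (2 ^ k * m + val k i'.1) y i'.2).PosSemidef
  en : ∀ k, k ≤ N → ∑ x ∈ iv N r1, ∑ y ∈ iv N r2, b k x y ⬝ᵥ b k x y ≤ EB
  born : ∑ k ∈ Ico k₀ N, ∑ x ∈ iv N r1, ∑ y ∈ iv N r2,
    (if Ch b k (ix k x) (ix k y) then b (k + 1) x y ⬝ᵥ b (k + 1) x y else 0) ≤ EB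
  /-- variation of the slot matrix against `b` on the nodes, and the drift (first order) -/
  var : ∑ k ∈ Ico k₀ N, GW N r2 r1 r3 (k + 1) (pl (k + 1)) (fun n2 n3 n1 =>
    ((2 : ℝ) ^ (k + 1) * 2 ^ (k + 1))⁻¹ * ∑ x ∈ iv (k + 1) n1, ∑ y ∈ iv (k + 1) n2,
      (β⁻¹ * ((gm x (k + 1) n3 *ᵥ b (k + 1) x y) ⬝ᵥ (gm x (k + 1) n3 *ᵥ b (k + 1) x y))
        + b (k + 1) x y ⬝ᵥ Nm x (k + 1) n3 *ᵥ b (k + 1) x y)) ≤ EB
  cr : ∑ k ∈ Ico k₀ N, GW N r2 r1 r3 k (pl k) (fun n2 n3 n1 => if Ch c k n1 n3 then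
    ((2 : ℝ) ^ k * 2 ^ k)⁻¹ * ∑ x ∈ iv k n1, ∑ y ∈ iv k n2,
      b (k + 1) x y ⬝ᵥ b (k + 1) x y else 0) ≤ EB

/-- **L5r**: the raw pair sum at every level `x2` of the stack with `t2 E ≤ x2 EB`. -/
def PairBCr (K : ℝ) : Prop :=
  ∀ {κ l : Type} [Fintype κ] [DecidableEq κ] [Fintype l] [DecidableEq l] (k₀ N : ℕ)
    (r1 r2 r3 : ℤ) (pl : ℕ → ℤ) (β : ℝ) (A : ℕ → ℤ → ℤ → ℝ) (b c : ℕ → ℤ → ℤ → κ → ℝ)
    (Th Nn M Nm : ℤ → ℕ → ℤ → Matrix κ κ ℝ) (L : ℤ → ℕ → ℤ → Matrix l κ ℝ) (V : Matrix l κ ℝ)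
    (G gn gm : ℤ → ℕ → ℤ → Matrix κ κ ℝ) (E EB cC t2 x2 : ℝ) (J : ℕ),
    k₀ ≤ N → Pl pl → Wgt N β Th Nn M Nm → Slot N Th Nm L V G gn gm →
    Num k₀ N r1 r2 r3 pl A b c Th M Nm E cC → NumX k₀ N r1 r2 r3 pl b c Th M Nm E →
    DpN k₀ N r1 r3 c Nn Nm E →
    NumB k₀ N r1 r2 r3 pl b c β gm Nm t2 EB →
    0 < x2 → 0 < t2 → cC ^ 2 ≤ 4 ^ J * x2 → t2 * E ≤ x2 * EB →
    ∑ k ∈ Ico k₀ N, GW N r2 r1 r3 (k + 1) (pl (k + 1)) (fun n2 n3 n1 =>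
      (WB (b (k + 1)) V (k + 1) n2 n1 * (hdl l (k + 1) *
        phs x2 (W1 (c (k + 1)) L (k + 1) n3 n1) * hdl l (k + 1))).trace)
      ≤ K * (J + 1) ^ 3 * (√(x2 * E * (t2 * EB)) + t2 * E)

end

end Vale.Agent.P141.H505.Sk1
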