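import Vale.Agent.P075.Bdl.B1
import Vale.Agent.P075.R.Pt

/-!
# P141, line (A): coupling of the levels of a moving slot

Matrix inequalities for the energy `GX X = tr X - log det (1 + X)` when the slot is multiplied
from the left by `1 + M` on one half of the outer cell and by `1 - M` on the other half.
The only first order term is `tr (Mᵀ (dY - g))`, `dY` the half difference of the Gram matrices,
`g` the half difference of `phi`; it is bounded by the half differences of `phi` at the higher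
levels, the level `s` with the weight `1 / s`.
-/

namespace Vale.Agent.P141.H505

open Finset Matrix Vale.Agent.P075

noncomputable section

variable {n m k : Type*} [Fintype n] [DecidableEq n] [Fintype m] [DecidableEq m]
  [Fintype k] [DecidableEq k]

/-! ### Cauchy-Schwarz for traces -/

omit [DecidableEq n] [DecidableEq m] in
theorem trace_tmul (A B : Matrix m n ℝ) : (Aᵀ * B).trace = ∑ j, ∑ i, A i j * B i j := by
  simp only [trace, Matrix.diag_apply, Matrix.mul_apply, transpose_apply]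

omit [DecidableEq n] [DecidableEq m] in
theorem hs_nonneg (A : Matrix m n ℝ) : 0 ≤ (Aᵀ * A).trace := by
  rw [trace_tmul]
  exact sum_nonneg fun j _ => sum_nonneg fun i _ => mul_self_nonneg _

omit [DecidableEq n] [DecidableEq m] in
theorem hs_cs (A B : Matrix m n ℝ) :
    |(Aᵀ * B).trace| ≤ Real.sqrt ((Aᵀ * A).trace) * Real.sqrt ((Bᵀ * B).trace) := by
  have e : ∀ A B : Matrix m n ℝ, (Aᵀ * B).trace = ∑ p : n × m, A p.2 p.1 * B p.2 p.1 := by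
    intro A B
    rw [trace_tmul, ← Finset.sum_product']
    rfl
  rw [← Real.sqrt_mul (hs_nonneg A)]
  refine Real.abs_le_sqrt ?_
  rw [e, e, e]
  have h := Finset.sum_mul_sq_le_sq_mul_sq Finset.univ (fun p : n × m => A p.2 p.1)
    (fun p : n × m => B p.2 p.1)
  simpa only [pow_two] using h

omit [DecidableEq n] [DecidableEq m] in
theorem hs_comm (A : Matrix m n ℝ) : (A * Aᵀ).trace = (Aᵀ * A).trace := trace_mul_comm _ _

/-! ### scaled resolvents -/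

omit [Fintype n] [DecidableEq n] in
theorem smul_psd {X : Matrix n n ℝ} (hX : X.PosSemidef) {μ : ℝ} (hμ : 0 ≤ μ) :
    (μ • X).PosSemidef := hX.smul hμ

/-- half difference of the Gram matrices -/
def dY (X₀ X₁ : Matrix n n ℝ) : Matrix n n ℝ := (1 / 2 : ℝ) • (X₀ - X₁)

/-- the half difference cut at the level `μ` -/
def gL (μ : ℝ) (X₀ X₁ : Matrix n n ℝ) : Matrix n n ℝ := res (μ • X₀) * dY X₀ X₁ * res (μ • X₁)

theorem gL_eq {X₀ X₁ : Matrix n n ℝ} (h0 : X₀.PosSemidef) (h1 : X₁.PosSemidef) {μ : ℝ}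
    (hμ : 0 ≤ μ) : μ • gL μ X₀ X₁ = hdiff (μ • X₀) (μ • X₁) := by
  have k0 := res_mul_one_add (smul_psd h0 hμ)
  have k1 := one_add_mul_res (smul_psd h1 hμ)
  have e : res (μ • X₀) * ((1 + μ • X₀) - (1 + μ • X₁)) * res (μ • X₁)
      = res (μ • X₁) - res (μ • X₀) := by
    rw [Matrix.mul_sub, Matrix.sub_mul, k0, Matrix.one_mul, Matrix.mul_assoc, k1, Matrix.mul_one]
  have e2 : (1 + μ • X₀) - (1 + μ • X₁) = μ • (X₀ - X₁) := by
    rw [smul_sub]; abel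
  rw [e2] at e
  have e3 : hdiff (μ • X₀) (μ • X₁) = (1 / 2 : ℝ) • (res (μ • X₁) - res (μ • X₀)) := by
    rw [hdiff, phi, phi]; congr 1; abel
  rw [e3, ← e, gL, dY]
  simp only [Matrix.mul_smul, Matrix.smul_mul, smul_smul]
  congr 1
  ring

/-- resolvents at two levels -/
theorem res_levels {X : Matrix n n ℝ} (hX : X.PosSemidef) {μ ν : ℝ} (hμ : 0 ≤ μ) (hν : 0 ≤ ν) :
    res (ν • X) - res (μ • X) = (μ - ν) • (res (μ • X) * X * res (ν • X)) := by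
  have k0 := res_mul_one_add (smul_psd hX hμ)
  have k1 := one_add_mul_res (smul_psd hX hν)
  have e : res (μ • X) * ((1 + μ • X) - (1 + ν • X)) * res (ν • X)
      = res (ν • X) - res (μ • X) := by
    rw [Matrix.mul_sub, Matrix.sub_mul, k0, Matrix.one_mul, Matrix.mul_assoc, k1, Matrix.mul_one]
  have e2 : (1 + μ • X) - (1 + ν • X) = (μ - ν) • X := by
    rw [sub_smul]; abel
  rw [e2] at e
  rw [← e]
  simp only [Matrix.mul_smul, Matrix.smul_mul]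

theorem res_comm {X : Matrix n n ℝ} (hX : X.PosSemidef) {μ ν : ℝ} (hμ : 0 ≤ μ) (hν : 0 ≤ ν) :
    res (μ • X) * X * res (ν • X) = res (ν • X) * X * res (μ • X) := by
  have h := congrArg transpose (rfl : res (μ • X) * X * res (ν • X) = res (μ • X) * X * res (ν • X))
  have s1 := res_symm (smul_psd hX hμ)
  have s2 := res_symm (smul_psd hX hν)
  have s3 := psd_isSymm hX
  rcases eq_or_ne μ ν with rfl | hne
  · rfl
  · have a1 := res_levels hX hμ hν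
    have a2 := res_levels hX hν hμ
    have e : (μ - ν) • (res (μ • X) * X * res (ν • X)) = (μ - ν) • (res (ν • X) * X * res (μ • X)) := by
      rw [← a1, ← neg_sub (res (μ • X)), a2, ← neg_smul, neg_sub]
    have hc : (μ - ν) ≠ 0 := sub_ne_zero.mpr hne
    exact smul_right_injective _ hc e

/-- step from one level to the next -/
theorem gL_step {X₀ X₁ : Matrix n n ℝ} (h0 : X₀.PosSemidef) (h1 : X₁.PosSemidef) {μ ν : ℝ}
    (hμ : 0 ≤ μ) (hν : 0 ≤ ν) :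
    gL ν X₀ X₁ - gL μ X₀ X₁ = (μ - ν) • (res (μ • X₀) * X₀ * gL ν X₀ X₁)
      + (μ - ν) • (gL μ X₀ X₁ * X₁ * res (ν • X₁)) := by
  have a0 := res_levels h0 hμ hν
  have a1 := res_levels h1 hμ hν
  have e0 : (μ - ν) • (res (μ • X₀) * X₀ * gL ν X₀ X₁)
      = (res (ν • X₀) - res (μ • X₀)) * dY X₀ X₁ * res (ν • X₁) := by
    rw [a0, gL]
    simp only [Matrix.smul_mul, Matrix.mul_assoc]
  have e1 : (μ - ν) • (gL μ X₀ X₁ * X₁ * res (ν • X₁))
      = res (μ • X₀) * dY X₀ X₁ * (res (ν • X₁) - res (μ • X₁)) := by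
    rw [a1, gL]
    simp only [Matrix.mul_smul, Matrix.mul_assoc]
  rw [e0, e1, gL, gL]
  noncomm_ring

omit [DecidableEq m] in
/-- `|X P_μ M|² ≤ μ⁻¹ tr (Mᵀ X M)` -/
theorem hs_res {X : Matrix n n ℝ} (hX : X.PosSemidef) {μ : ℝ} (hμ : 0 < μ) (M : Matrix n m ℝ) :
    ((X * res (μ • X) * M)ᵀ * (X * res (μ • X) * M)).trace ≤ μ⁻¹ * (Mᵀ * X * M).trace := by
  have hX' := smul_psd hX hμ.le
  have s1 := res_symm hX'
  have s3 := psd_isSymm hX
  -- `X P = μ⁻¹ phi`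
  have e1 : X * res (μ • X) = μ⁻¹ • phi (μ • X) := by
    rw [← mul_res_phi hX', Matrix.smul_mul, smul_smul, inv_mul_cancel₀ hμ.ne', one_smul]
  have sp := phi_symm hX'
  have h1 : ((X * res (μ • X) * M)ᵀ * (X * res (μ • X) * M)).trace
      = μ⁻¹ * μ⁻¹ * (Mᵀ * (phi (μ • X) * phi (μ • X)) * M).trace := by
    rw [e1]
    simp only [Matrix.smul_mul, transpose_smul, transpose_mul, Matrix.mul_smul, smul_smul,
      trace_smul, smul_eq_mul, sp, Matrix.mul_assoc]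
  have h2 : (Mᵀ * (phi (μ • X) * phi (μ • X)) * M).trace ≤ (Mᵀ * phi (μ • X) * M).trace := by
    have hp := phi_sub_sq_psd hX'
    have h := (psd_conj hp Mᵀ).trace_nonneg
    rw [transpose_transpose, Matrix.mul_sub, Matrix.sub_mul, trace_sub] at h
    linarith
  have h3 : (Mᵀ * phi (μ • X) * M).trace ≤ μ * (Mᵀ * X * M).trace := by
    have hp : (μ • X - phi (μ • X)).PosSemidef := by
      have e : μ • X - phi (μ • X) = (μ • X) * res (μ • X) * (μ • X) := by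
        have a := mul_res hX'
        rw [a, Matrix.sub_mul, Matrix.one_mul, res_mul hX', phi]
      rw [e]
      exact psd_conj_symm (res_psd hX') (psd_isSymm hX')
    have h := (psd_conj hp Mᵀ).trace_nonneg
    rw [transpose_transpose, Matrix.mul_sub, Matrix.sub_mul, trace_sub, Matrix.mul_smul,
      Matrix.smul_mul, trace_smul, smul_eq_mul] at h
    linarith
  rw [h1]
  have hi : 0 < μ⁻¹ := inv_pos.mpr hμ
  calc μ⁻¹ * μ⁻¹ * (Mᵀ * (phi (μ • X) * phi (μ • X)) * M).trace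
      ≤ μ⁻¹ * μ⁻¹ * (μ * (Mᵀ * X * M).trace) :=
        mul_le_mul_of_nonneg_left (h2.trans h3) (by positivity)
    _ = μ⁻¹ * (Mᵀ * X * M).trace := by field_simp

omit [DecidableEq n] [DecidableEq m] in
theorem quad_nonneg {X : Matrix n n ℝ} (hX : X.PosSemidef) (M : Matrix n m ℝ) :
    0 ≤ (Mᵀ * X * M).trace := by
  have h := (psd_conj hX Mᵀ).trace_nonneg
  rwa [transpose_transpose] at h

/-- `|G_μ|` -/
def nL (μ : ℝ) (X₀ X₁ : Matrix n n ℝ) : ℝ :=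
  Real.sqrt (((gL μ X₀ X₁)ᵀ * gL μ X₀ X₁).trace)

theorem nL_nonneg (μ : ℝ) (X₀ X₁ : Matrix n n ℝ) : 0 ≤ nL μ X₀ X₁ := Real.sqrt_nonneg _

/-- the increment is paid by the energy at its level -/
theorem nL_le {X₀ X₁ : Matrix n n ℝ} (h0 : X₀.PosSemidef) (h1 : X₁.PosSemidef) {μ : ℝ}
    (hμ : 0 < μ) : μ * nL μ X₀ X₁ ≤ Real.sqrt ((delt (μ • X₀) (μ • X₁)).trace) := by
  have h0' := smul_psd h0 hμ.le
  have h1' := smul_psd h1 hμ.le
  have e : μ * nL μ X₀ X₁ = Real.sqrt ((hdiff (μ • X₀) (μ • X₁) * hdiff (μ • X₀) (μ • X₁)).trace) := by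
    have s := R.hdiff_symm h0' h1'
    have e1 : (hdiff (μ • X₀) (μ • X₁) * hdiff (μ • X₀) (μ • X₁)).trace
        = μ ^ 2 * ((gL μ X₀ X₁)ᵀ * gL μ X₀ X₁).trace := by
      have : hdiff (μ • X₀) (μ • X₁) * hdiff (μ • X₀) (μ • X₁)
          = (hdiff (μ • X₀) (μ • X₁))ᵀ * hdiff (μ • X₀) (μ • X₁) := by rw [s]
      rw [this, ← gL_eq h0 h1 hμ.le]
      simp only [transpose_smul, Matrix.smul_mul, Matrix.mul_smul, smul_smul, trace_smul,
        smul_eq_mul]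
      ring
    rw [e1, Real.sqrt_mul (sq_nonneg μ), Real.sqrt_sq hμ.le, nL]
  rw [e]
  exact Real.sqrt_le_sqrt (R.hdiff_sq_le h0' h1')

/-- the weight of the multiplier against the slot -/
def wM (M X₀ X₁ : Matrix n n ℝ) : ℝ :=
  Real.sqrt ((Mᵀ * X₀ * M).trace) + Real.sqrt ((M * X₁ * Mᵀ).trace)

omit [DecidableEq n] in
theorem wM_nonneg (M X₀ X₁ : Matrix n n ℝ) : 0 ≤ wM M X₀ X₁ := by
  unfold wM; positivity

/-- one step of the levels against the multiplier -/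
theorem step_le {X₀ X₁ : Matrix n n ℝ} (h0 : X₀.PosSemidef) (h1 : X₁.PosSemidef) {μ : ℝ}
    (hμ : 0 < μ) (M : Matrix n n ℝ) :
    |(Mᵀ * (gL (μ / 4) X₀ X₁ - gL μ X₀ X₁)).trace|
      ≤ (3 / 2) * (Real.sqrt (μ / 4) * nL (μ / 4) X₀ X₁ * Real.sqrt ((Mᵀ * X₀ * M).trace))
        + (3 / 2) * (Real.sqrt μ * nL μ X₀ X₁ * Real.sqrt ((M * X₁ * Mᵀ).trace)) := by
  have hν : 0 < μ / 4 := by positivity
  have hs := gL_step h0 h1 hμ.le hν.le
  have hc : μ - μ / 4 = 3 / 4 * μ := by ring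
  rw [hs, hc, Matrix.mul_add, trace_add, Matrix.mul_smul, Matrix.mul_smul, trace_smul, trace_smul,
    smul_eq_mul, smul_eq_mul]
  -- first term
  have r0 := res_symm (smul_psd h0 hμ.le)
  have r1 := res_symm (smul_psd h1 hν.le)
  have s0 := psd_isSymm h0
  have s1 := psd_isSymm h1
  have c0 : res (μ • X₀) * X₀ = X₀ * res (μ • X₀) := by
    have a := res_mul (smul_psd h0 hμ.le)
    have b := mul_res (smul_psd h0 hμ.le)
    rw [← b, Matrix.mul_smul, Matrix.smul_mul] at a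
    exact smul_right_injective _ hμ.ne' a
  have c1 : res ((μ / 4) • X₁) * X₁ = X₁ * res ((μ / 4) • X₁) := by
    have a := res_mul (smul_psd h1 hν.le)
    have b := mul_res (smul_psd h1 hν.le)
    rw [← b, Matrix.mul_smul, Matrix.smul_mul] at a
    exact smul_right_injective _ hν.ne' a
  have t0 : |(Mᵀ * (res (μ • X₀) * X₀ * gL (μ / 4) X₀ X₁)).trace|
      ≤ (Real.sqrt μ)⁻¹ * Real.sqrt ((Mᵀ * X₀ * M).trace) * nL (μ / 4) X₀ X₁ := by
    have e : Mᵀ * (res (μ • X₀) * X₀ * gL (μ / 4) X₀ X₁)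
        = (X₀ * res (μ • X₀) * M)ᵀ * gL (μ / 4) X₀ X₁ := by
      simp only [transpose_mul, r0, s0, Matrix.mul_assoc]
    rw [e]
    refine (hs_cs _ _).trans ?_
    refine mul_le_mul_of_nonneg_right ?_ (nL_nonneg _ _ _)
    have h := Real.sqrt_le_sqrt (hs_res h0 hμ M)
    rwa [Real.sqrt_mul (inv_nonneg.mpr hμ.le), Real.sqrt_inv] at h
  have t1 : |(Mᵀ * (gL μ X₀ X₁ * X₁ * res ((μ / 4) • X₁))).trace|
      ≤ (Real.sqrt (μ / 4))⁻¹ * Real.sqrt ((M * X₁ * Mᵀ).trace) * nL μ X₀ X₁ := by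
    have e : (Mᵀ * (gL μ X₀ X₁ * X₁ * res ((μ / 4) • X₁))).trace
        = (((gL μ X₀ X₁)ᵀ)ᵀ * (X₁ * res ((μ / 4) • X₁) * Mᵀ)).trace := by
      rw [transpose_transpose, trace_mul_comm]
      simp only [Matrix.mul_assoc]
    rw [e]
    refine (hs_cs _ _).trans ?_
    rw [transpose_transpose, hs_comm, mul_comm]
    refine mul_le_mul_of_nonneg_right ?_ (nL_nonneg _ _ _)
    have h := Real.sqrt_le_sqrt (hs_res h1 hν Mᵀ)
    rwa [Real.sqrt_mul (inv_nonneg.mpr hν.le), Real.sqrt_inv, transpose_transpose] at h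
  have sq4 : Real.sqrt μ = 2 * Real.sqrt (μ / 4) := by
    rw [show μ = 2 ^ 2 * (μ / 4) by ring, Real.sqrt_mul (by norm_num), Real.sqrt_sq (by norm_num)]
    congr 2
    ring
  have hsp : 0 < Real.sqrt (μ / 4) := Real.sqrt_pos.mpr hν
  have hsq : Real.sqrt (μ / 4) * Real.sqrt (μ / 4) = μ / 4 := Real.mul_self_sqrt hν.le
  have a0 : 3 / 4 * μ * (Real.sqrt μ)⁻¹ = (3 / 2) * Real.sqrt (μ / 4) := by
    rw [sq4]
    field_simp
    nlinarith [hsq]
  have a1 : 3 / 4 * μ * (Real.sqrt (μ / 4))⁻¹ = (3 / 2) * Real.sqrt μ := by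
    rw [sq4]
    field_simp
    nlinarith [hsq]
  have hc0 : (0 : ℝ) ≤ 3 / 4 * μ := by positivity
  refine (abs_add_le _ _).trans (add_le_add ?_ ?_)
  · rw [abs_mul, abs_of_nonneg hc0]
    calc 3 / 4 * μ * |(Mᵀ * (res (μ • X₀) * X₀ * gL (μ / 4) X₀ X₁)).trace|
        ≤ 3 / 4 * μ * ((Real.sqrt μ)⁻¹ * Real.sqrt ((Mᵀ * X₀ * M).trace) * nL (μ / 4) X₀ X₁) :=
          mul_le_mul_of_nonneg_left t0 hc0
      _ = (3 / 4 * μ * (Real.sqrt μ)⁻¹) * Real.sqrt ((Mᵀ * X₀ * M).trace) * nL (μ / 4) X₀ X₁ := by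
          ring
      _ = _ := by rw [a0]; ring
  · rw [abs_mul, abs_of_nonneg hc0]
    calc 3 / 4 * μ * |(Mᵀ * (gL μ X₀ X₁ * X₁ * res ((μ / 4) • X₁))).trace|
        ≤ 3 / 4 * μ * ((Real.sqrt (μ / 4))⁻¹ * Real.sqrt ((M * X₁ * Mᵀ).trace) * nL μ X₀ X₁) :=
          mul_le_mul_of_nonneg_left t1 hc0
      _ = (3 / 4 * μ * (Real.sqrt (μ / 4))⁻¹) * Real.sqrt ((M * X₁ * Mᵀ).trace) * nL μ X₀ X₁ := by
          ring
      _ = _ := by rw [a1]; ring

omit [DecidableEq m] in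
/-- `Z - Z²` for `0 ≤ Z ≤ 1` -/
theorem sub_sq_psd {Z : Matrix n n ℝ} (hZ : Z.PosSemidef) (h1 : (1 - Z).PosSemidef) :
    (Z - Z * Z).PosSemidef := by
  obtain ⟨B, hB, rfl⟩ := exists_sq hZ
  have e : B * B - B * B * (B * B) = B * (1 - B * B) * B := by noncomm_ring
  rw [e]
  exact psd_conj_symm h1 (psd_isSymm hB)

omit [DecidableEq m] in
/-- `|X M|² ≤ μ⁻¹ tr (Mᵀ X M)` when `μ X ≤ 1` -/
theorem hs_cap {X : Matrix n n ℝ} (hX : X.PosSemidef) {μ : ℝ} (hμ : 0 < μ)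
    (c : (1 - μ • X).PosSemidef) (M : Matrix n m ℝ) :
    ((X * M)ᵀ * (X * M)).trace ≤ μ⁻¹ * (Mᵀ * X * M).trace := by
  have hp := sub_sq_psd (smul_psd hX hμ.le) c
  have h := (psd_conj hp Mᵀ).trace_nonneg
  have e : Mᵀ * (μ • X - μ • X * (μ • X)) * Mᵀᵀ
      = μ • (Mᵀ * X * M) - (μ * μ) • ((X * M)ᵀ * (X * M)) := by
    simp only [transpose_transpose, Matrix.mul_sub, Matrix.sub_mul, Matrix.mul_smul,
      Matrix.smul_mul, smul_smul, transpose_mul, psd_isSymm hX, Matrix.mul_assoc]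
  rw [e, trace_sub, trace_smul, trace_smul, smul_eq_mul, smul_eq_mul] at h
  have h2 : μ * (μ * ((X * M)ᵀ * (X * M)).trace) ≤ μ * (Mᵀ * X * M).trace := by linarith
  have h3 := le_of_mul_le_mul_left h2 hμ
  rw [← div_eq_inv_mul, le_div_iff₀ hμ]
  linarith

/-- `|A (1 + μ X)| ≤ 2 |A|` when `μ X ≤ 1` -/
theorem hs_two {X : Matrix n n ℝ} (hX : X.PosSemidef) {μ : ℝ} (hμ : 0 < μ)
    (c : (1 - μ • X).PosSemidef) (A : Matrix n n ℝ) :
    ((A * (1 + μ • X))ᵀ * (A * (1 + μ • X))).trace ≤ 2 ^ 2 * (Aᵀ * A).trace := by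
  have hZ := smul_psd hX hμ.le
  have hp := sub_sq_psd hZ c
  have h4 : ((4 : ℝ) • (1 : Matrix n n ℝ) - (1 + μ • X) * (1 + μ • X)).PosSemidef := by
    have e : (4 : ℝ) • (1 : Matrix n n ℝ) - (1 + μ • X) * (1 + μ • X)
        = (3 : ℝ) • (1 - μ • X) + (μ • X - μ • X * (μ • X)) := by
      simp only [Matrix.add_mul, Matrix.mul_add, Matrix.one_mul, Matrix.mul_one]
      module
    rw [e]
    exact (c.smul (by norm_num)).add hp
  have h := trace_mul_nonneg (psd_transpose_mul A) h4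
  rw [Matrix.mul_sub, trace_sub, Matrix.mul_smul, Matrix.mul_one, trace_smul, smul_eq_mul] at h
  have e : ((A * (1 + μ • X))ᵀ * (A * (1 + μ • X))).trace
      = (Aᵀ * A * ((1 + μ • X) * (1 + μ • X))).trace := by
    have hs : (1 + μ • X)ᵀ = 1 + μ • X := by
      rw [transpose_add, transpose_one, psd_isSymm hZ]
    rw [transpose_mul, hs, Matrix.mul_assoc, trace_mul_comm]
    simp only [Matrix.mul_assoc]
  rw [e]
  linarith

/-- the top level: `μ X ≤ 1` -/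
theorem top_le {X₀ X₁ : Matrix n n ℝ} (h0 : X₀.PosSemidef) (h1 : X₁.PosSemidef) {μ : ℝ}
    (hμ : 0 < μ) (c0 : (1 - μ • X₀).PosSemidef) (c1 : (1 - μ • X₁).PosSemidef)
    (M : Matrix n n ℝ) :
    |(Mᵀ * (dY X₀ X₁ - gL μ X₀ X₁)).trace|
      ≤ 2 * (Real.sqrt μ * nL μ X₀ X₁ * wM M X₀ X₁) := by
  have h0' := smul_psd h0 hμ.le
  have h1' := smul_psd h1 hμ.le
  -- dY = (1 + μ X₀) g (1 + μ X₁)
  have e : dY X₀ X₁ = (1 + μ • X₀) * gL μ X₀ X₁ * (1 + μ • X₁) := by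
    have a := one_add_mul_res h0'
    have b := res_mul_one_add h1'
    calc dY X₀ X₁ = ((1 + μ • X₀) * res (μ • X₀)) * dY X₀ X₁ * (res (μ • X₁) * (1 + μ • X₁)) := by
          rw [a, b, Matrix.one_mul, Matrix.mul_one]
      _ = _ := by rw [gL]; noncomm_ring
  have e2 : dY X₀ X₁ - gL μ X₀ X₁
      = μ • (X₀ * (gL μ X₀ X₁ * (1 + μ • X₁))) + μ • (gL μ X₀ X₁ * X₁) := by
    conv_lhs => rw [e]
    simp only [Matrix.add_mul, Matrix.mul_add, Matrix.one_mul, Matrix.mul_one, Matrix.smul_mul,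
      Matrix.mul_smul, smul_add, Matrix.mul_assoc]
    abel
  have t0 : |(Mᵀ * (X₀ * (gL μ X₀ X₁ * (1 + μ • X₁)))).trace|
      ≤ (Real.sqrt μ)⁻¹ * Real.sqrt ((Mᵀ * X₀ * M).trace) * (2 * nL μ X₀ X₁) := by
    have e : Mᵀ * (X₀ * (gL μ X₀ X₁ * (1 + μ • X₁)))
        = (X₀ * M)ᵀ * (gL μ X₀ X₁ * (1 + μ • X₁)) := by
      simp only [transpose_mul, psd_isSymm h0, Matrix.mul_assoc]
    rw [e]
    refine (hs_cs _ _).trans (mul_le_mul ?_ ?_ (Real.sqrt_nonneg _) (by positivity))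
    · have h := Real.sqrt_le_sqrt (hs_cap h0 hμ c0 M)
      rwa [Real.sqrt_mul (inv_nonneg.mpr hμ.le), Real.sqrt_inv] at h
    · have h := Real.sqrt_le_sqrt (hs_two h1 hμ c1 (gL μ X₀ X₁))
      rwa [Real.sqrt_mul (by norm_num), Real.sqrt_sq (by norm_num)] at h
  have t1 : |(Mᵀ * (gL μ X₀ X₁ * X₁)).trace|
      ≤ (Real.sqrt μ)⁻¹ * Real.sqrt ((M * X₁ * Mᵀ).trace) * nL μ X₀ X₁ := by
    have e : (Mᵀ * (gL μ X₀ X₁ * X₁)).trace = (((gL μ X₀ X₁)ᵀ)ᵀ * (X₁ * Mᵀ)).trace := by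
      rw [transpose_transpose, trace_mul_comm]
      simp only [Matrix.mul_assoc]
    rw [e]
    refine (hs_cs _ _).trans ?_
    rw [transpose_transpose, hs_comm, mul_comm]
    refine mul_le_mul_of_nonneg_right ?_ (nL_nonneg _ _ _)
    have h := Real.sqrt_le_sqrt (hs_cap h1 hμ c1 Mᵀ)
    rwa [Real.sqrt_mul (inv_nonneg.mpr hμ.le), Real.sqrt_inv, transpose_transpose] at h
  have hsp : 0 < Real.sqrt μ := Real.sqrt_pos.mpr hμ
  have hsq : μ * (Real.sqrt μ)⁻¹ = Real.sqrt μ := by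
    have := Real.mul_self_sqrt hμ.le
    field_simp
    nlinarith
  have hn := nL_nonneg μ X₀ X₁
  have ha := Real.sqrt_nonneg ((Mᵀ * X₀ * M).trace)
  have hb := Real.sqrt_nonneg ((M * X₁ * Mᵀ).trace)
  rw [e2, Matrix.mul_add, trace_add, Matrix.mul_smul, Matrix.mul_smul, trace_smul, trace_smul,
    smul_eq_mul, smul_eq_mul]
  calc |μ * (Mᵀ * (X₀ * (gL μ X₀ X₁ * (1 + μ • X₁)))).trace + μ * (Mᵀ * (gL μ X₀ X₁ * X₁)).trace|
      ≤ μ * |(Mᵀ * (X₀ * (gL μ X₀ X₁ * (1 + μ • X₁)))).trace|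
        + μ * |(Mᵀ * (gL μ X₀ X₁ * X₁)).trace| := by
        refine (abs_add_le _ _).trans ?_
        rw [abs_mul, abs_mul, abs_of_pos hμ]
    _ ≤ μ * ((Real.sqrt μ)⁻¹ * Real.sqrt ((Mᵀ * X₀ * M).trace) * (2 * nL μ X₀ X₁))
        + μ * ((Real.sqrt μ)⁻¹ * Real.sqrt ((M * X₁ * Mᵀ).trace) * nL μ X₀ X₁) :=
        add_le_add (mul_le_mul_of_nonneg_left t0 hμ.le) (mul_le_mul_of_nonneg_left t1 hμ.le)
    _ = (μ * (Real.sqrt μ)⁻¹) * (2 * nL μ X₀ X₁ * Real.sqrt ((Mᵀ * X₀ * M).trace)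
        + nL μ X₀ X₁ * Real.sqrt ((M * X₁ * Mᵀ).trace)) := by ring
    _ ≤ Real.sqrt μ * (2 * nL μ X₀ X₁ * Real.sqrt ((Mᵀ * X₀ * M).trace)
        + 2 * nL μ X₀ X₁ * Real.sqrt ((M * X₁ * Mᵀ).trace)) := by
        rw [hsq]
        refine mul_le_mul_of_nonneg_left ?_ hsp.le
        have := mul_nonneg hn hb
        linarith
    _ = 2 * (Real.sqrt μ * nL μ X₀ X₁ * wM M X₀ X₁) := by rw [wM]; ring

/-- the sum over the levels `μ / 4 ^ j`, `j ≤ J` -/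
def sL (μ : ℝ) (J : ℕ) (X₀ X₁ : Matrix n n ℝ) : ℝ :=
  ∑ j ∈ range (J + 1), Real.sqrt (μ / 4 ^ j) * nL (μ / 4 ^ j) X₀ X₁

theorem sL_nonneg (μ : ℝ) (J : ℕ) (X₀ X₁ : Matrix n n ℝ) : 0 ≤ sL μ J X₀ X₁ :=
  sum_nonneg fun _ _ => mul_nonneg (Real.sqrt_nonneg _) (nL_nonneg _ _ _)

theorem sL_succ (μ : ℝ) (J : ℕ) (X₀ X₁ : Matrix n n ℝ) :
    sL μ (J + 1) X₀ X₁ = sL (μ / 4) J X₀ X₁ + Real.sqrt μ * nL μ X₀ X₁ := by
  rw [sL, sum_range_succ', sL, pow_zero, div_one]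
  congr 1
  refine sum_congr rfl fun j _ => ?_
  have : μ / 4 ^ (j + 1) = μ / 4 / 4 ^ j := by rw [pow_succ]; field_simp
  rw [this]

theorem level_aux {X₀ X₁ : Matrix n n ℝ} (h0 : X₀.PosSemidef) (h1 : X₁.PosSemidef) (J : ℕ) :
    ∀ {μ : ℝ}, 0 < μ → (1 - (μ / 4 ^ J) • X₀).PosSemidef → (1 - (μ / 4 ^ J) • X₁).PosSemidef →
    ∀ M : Matrix n n ℝ, |(Mᵀ * (dY X₀ X₁ - gL μ X₀ X₁)).trace|
      ≤ 4 * (wM M X₀ X₁ * sL μ J X₀ X₁) - 2 * (wM M X₀ X₁ * (Real.sqrt μ * nL μ X₀ X₁)) := by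
  induction J with
  | zero =>
    intro μ hμ c0 c1 M
    rw [pow_zero, div_one] at c0 c1
    have h := top_le h0 h1 hμ c0 c1 M
    have e : sL μ 0 X₀ X₁ = Real.sqrt μ * nL μ X₀ X₁ := by
      rw [sL, zero_add, sum_range_one, pow_zero, div_one]
    rw [e]
    linarith
  | succ J ih =>
    intro μ hμ c0 c1 M
    have hν : 0 < μ / 4 := by positivity
    have e4 : μ / 4 ^ (J + 1) = μ / 4 / 4 ^ J := by rw [pow_succ]; field_simp
    rw [e4] at c0 c1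
    have h := ih hν c0 c1 M
    have hs := step_le h0 h1 hμ M
    rw [sL_succ]
    have e : Mᵀ * (dY X₀ X₁ - gL μ X₀ X₁) = Mᵀ * (dY X₀ X₁ - gL (μ / 4) X₀ X₁)
        + Mᵀ * (gL (μ / 4) X₀ X₁ - gL μ X₀ X₁) := by
      rw [← Matrix.mul_add]; congr 1; abel
    rw [e, trace_add]
    have h2 := abs_add_le ((Mᵀ * (dY X₀ X₁ - gL (μ / 4) X₀ X₁)).trace)
      ((Mᵀ * (gL (μ / 4) X₀ X₁ - gL μ X₀ X₁)).trace)
    have ha := Real.sqrt_nonneg ((Mᵀ * X₀ * M).trace)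
    have hb := Real.sqrt_nonneg ((M * X₁ * Mᵀ).trace)
    have hf0 : 0 ≤ Real.sqrt μ * nL μ X₀ X₁ := mul_nonneg (Real.sqrt_nonneg _) (nL_nonneg _ _ _)
    have hf1 : 0 ≤ Real.sqrt (μ / 4) * nL (μ / 4) X₀ X₁ :=
      mul_nonneg (Real.sqrt_nonneg _) (nL_nonneg _ _ _)
    set f0 := Real.sqrt μ * nL μ X₀ X₁
    set f1 := Real.sqrt (μ / 4) * nL (μ / 4) X₀ X₁
    have hw : wM M X₀ X₁ = Real.sqrt ((Mᵀ * X₀ * M).trace) + Real.sqrt ((M * X₁ * Mᵀ).trace) := rfl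
    rw [hw] at h ⊢
    set a := Real.sqrt ((Mᵀ * X₀ * M).trace)
    set b := Real.sqrt ((M * X₁ * Mᵀ).trace)
    have p1 := mul_nonneg hf0 ha
    have p2 := mul_nonneg hf1 ha
    have p3 := mul_nonneg hf0 hb
    have p4 := mul_nonneg hf1 hb
    nlinarith

/-- **Level lemma.** The uncut half difference minus the half difference at the level `μ`, against
a multiplier `M`, is paid by the half differences at the levels `μ / 4 ^ j`. -/
theorem level_lemma {X₀ X₁ : Matrix n n ℝ} (h0 : X₀.PosSemidef) (h1 : X₁.PosSemidef) (J : ℕ)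
    {μ : ℝ} (hμ : 0 < μ) (c0 : (1 - (μ / 4 ^ J) • X₀).PosSemidef)
    (c1 : (1 - (μ / 4 ^ J) • X₁).PosSemidef) (M : Matrix n n ℝ) :
    |(Mᵀ * (dY X₀ X₁ - gL μ X₀ X₁)).trace| ≤ 4 * (wM M X₀ X₁ * sL μ J X₀ X₁) := by
  have h := level_aux h0 h1 J hμ c0 c1 M
  have hw := wM_nonneg M X₀ X₁
  have hf : 0 ≤ Real.sqrt μ * nL μ X₀ X₁ := mul_nonneg (Real.sqrt_nonneg _) (nL_nonneg _ _ _)
  have := mul_nonneg hw hf
  linarith

end

end Vale.Agent.P141.H505
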