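import Vale.Agent.P141.H505.Lev

/-!
# P141, line (A): change of the energy `GX` under left multipliers of the slot

* `GX_tangent`: `GX` is convex with derivative `phi`;
* `GX_change`: outer step, the two children are multiplied by `1 + M₀`, `1 + M₁`;
* `mid_change`: middle step, the same multipliers act on the far side (`X = Cᵀ C`, `Y = C Cᵀ`);
* `delt_le_cd`: the row defect of `Y` is at most the column defect of `X`.
-/

namespace Vale.Agent.P141.H505

open Finset Matrix Vale.Agent.P075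

noncomputable section

variable {n m : Type*} [Fintype n] [DecidableEq n] [Fintype m] [DecidableEq m]

/-- `GX` lies above its tangents -/
theorem GX_tangent {X Z : Matrix n n ℝ} (hX : X.PosSemidef) (hZ : Z.PosSemidef) :
    GX X + (phi X * (Z - X)).trace ≤ GX Z := by
  have hdX := det_pos_one_add hX
  have hdZ := det_pos_one_add hZ
  have hres : 0 < (res X).det := by rw [det_res hX]; exact inv_pos.mpr hdX
  have h := det_mul_le_exp (res_psd hX) (posDef_one_add hZ).posSemidef
  have h2 := Real.log_le_log (mul_pos hres hdZ) h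
  rw [Real.log_exp, Real.log_mul hres.ne' hdZ.ne', log_det_res hX] at h2
  have e1 : (res X * (1 + Z)).trace = Fintype.card n + (res X * (Z - X)).trace := by
    have e : res X * (1 + Z) = res X * (1 + X) + res X * (Z - X) := by
      rw [← Matrix.mul_add]; congr 1; abel
    rw [e, trace_add, res_mul_one_add hX, trace_one]
  rw [e1] at h2
  have e2 : (phi X * (Z - X)).trace = (Z - X).trace - (res X * (Z - X)).trace := by
    rw [phi, Matrix.sub_mul, Matrix.one_mul, trace_sub]
  have h3 : ld Z = Real.log (1 + Z).det := rfl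
  rw [e2, trace_sub]
  simp only [GX]
  linarith

/-- `X phi X`, the derivative of the energy along a left multiplier -/
def hP (X : Matrix n n ℝ) : Matrix n n ℝ := X - phi X

theorem hP_eq {X : Matrix n n ℝ} (h : X.PosSemidef) : X * phi X = hP X := by
  rw [phi, Matrix.mul_sub, Matrix.mul_one, mul_res h, hP, phi]

theorem hP_eq' {X : Matrix n n ℝ} (h : X.PosSemidef) : phi X * X = hP X := by
  rw [phi, Matrix.sub_mul, Matrix.one_mul, res_mul h, hP, phi]

/-- one child: energy after the multiplier `1 + M` -/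
theorem GX_mul {X : Matrix n n ℝ} (h : X.PosSemidef) (M : Matrix n n ℝ) :
    GX X + 2 * (Mᵀ * hP X).trace ≤ GX ((1 + M) * X * (1 + M)ᵀ) := by
  have hZ := psd_conj h (1 + M)
  have ht := GX_tangent h hZ
  have s := psd_isSymm h
  have sp := phi_symm h
  have e : (1 + M) * X * (1 + M)ᵀ - X = M * X + X * Mᵀ + M * X * Mᵀ := by
    rw [transpose_add, transpose_one]
    noncomm_ring
  have h0 : 0 ≤ (phi X * (M * X * Mᵀ)).trace := trace_mul_nonneg (phi_psd h) (psd_conj h M)
  have sh : (hP X)ᵀ = hP X := by rw [hP, transpose_sub, s, sp]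
  have e1 : (phi X * (M * X)).trace = (Mᵀ * hP X).trace := by
    rw [trace_mul_comm, Matrix.mul_assoc, hP_eq h, ← trace_transpose (M * hP X), transpose_mul, sh,
      trace_mul_comm]
  have e2 : (phi X * (X * Mᵀ)).trace = (Mᵀ * hP X).trace := by
    rw [← Matrix.mul_assoc, hP_eq' h, trace_mul_comm]
  rw [e, Matrix.mul_add, Matrix.mul_add, trace_add, trace_add, e1, e2] at ht
  linarith

/-- **Outer change.** Children `X₀`, `X₁` at the old slot, multiplied by `1 + M₀`, `1 + M₁`. -/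
theorem GX_change {X₀ X₁ : Matrix n n ℝ} (h0 : X₀.PosSemidef) (h1 : X₁.PosSemidef)
    (M₀ M₁ : Matrix n n ℝ) :
    (1 / 2) * (GX X₀ + GX X₁) + ((M₀ᵀ * hP X₀).trace + (M₁ᵀ * hP X₁).trace)
      ≤ (1 / 2) * (GX ((1 + M₀) * X₀ * (1 + M₀)ᵀ) + GX ((1 + M₁) * X₁ * (1 + M₁)ᵀ)) := by
  have a := GX_mul h0 M₀
  have b := GX_mul h1 M₁
  linarith

/-- half difference of `X phi X` -/
theorem hP_diff (X₀ X₁ : Matrix n n ℝ) : hP X₀ - hP X₁ = (2 : ℝ) • (dY X₀ X₁ - hdiff X₀ X₁) := by
  simp only [hP, dY, hdiff]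
  module

/-- `1 + M'` on one child, `1 - M'` on the other -/
theorem GX_change_odd {X₀ X₁ : Matrix n n ℝ} (h0 : X₀.PosSemidef) (h1 : X₁.PosSemidef)
    (M : Matrix n n ℝ) :
    (1 / 2) * (GX X₀ + GX X₁) + 2 * (Mᵀ * (dY X₀ X₁ - hdiff X₀ X₁)).trace
      ≤ (1 / 2) * (GX ((1 + M) * X₀ * (1 + M)ᵀ) + GX ((1 - M) * X₁ * (1 - M)ᵀ)) := by
  have a := GX_change h0 h1 M (-M)
  have e : (Mᵀ * hP X₀).trace + ((-M)ᵀ * hP X₁).trace
      = 2 * (Mᵀ * (dY X₀ X₁ - hdiff X₀ X₁)).trace := by
    rw [transpose_neg, Matrix.neg_mul, trace_neg, ← sub_eq_add_neg, ← trace_sub, ← Matrix.mul_sub,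
      hP_diff, Matrix.mul_smul, trace_smul, smul_eq_mul]
  rw [e, ← sub_eq_add_neg] at a
  exact a

/-! ### the middle step -/

/-- intertwining -/
theorem res_inter {X : Matrix n n ℝ} {Y : Matrix m m ℝ} (hX : X.PosSemidef) (hY : Y.PosSemidef)
    {B : Matrix m n ℝ} (h : B * X = Y * B) : B * res X = res Y * B := by
  have a := one_add_mul_res hX
  have b := res_mul_one_add hY
  have e : B * (1 + X) = (1 + Y) * B := by
    rw [Matrix.mul_add, Matrix.add_mul, Matrix.mul_one, Matrix.one_mul, h]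
  calc B * res X = res Y * (1 + Y) * B * res X := by rw [b, Matrix.one_mul]
    _ = res Y * (B * (1 + X)) * res X := by rw [e]; simp only [Matrix.mul_assoc]
    _ = res Y * B * ((1 + X) * res X) := by simp only [Matrix.mul_assoc]
    _ = res Y * B := by rw [a, Matrix.mul_one]

theorem phi_inter {X : Matrix n n ℝ} {Y : Matrix m m ℝ} (hX : X.PosSemidef) (hY : Y.PosSemidef)
    {B : Matrix m n ℝ} (h : B * X = Y * B) : B * phi X = phi Y * B := by
  rw [phi, phi, Matrix.mul_sub, Matrix.sub_mul, Matrix.mul_one, Matrix.one_mul, res_inter hX hY h]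

section mid

variable {r : Matrix n n ℝ} (hr : rᵀ = r) (hr2 : r * r = 1)

omit [DecidableEq m] in
include hr hr2 in
theorem plus_psd (C : Matrix m n ℝ) : (C * (1 + r) * Cᵀ).PosSemidef := by
  have h := psd_mul_transpose (C * (1 + r))
  have e : C * (1 + r) * (C * (1 + r))ᵀ = (2 : ℝ) • (C * (1 + r) * Cᵀ) := by
    have e1 : (1 + r) * (1 + r) = (2 : ℝ) • (1 + r) := by
      simp only [Matrix.add_mul, Matrix.mul_add, Matrix.one_mul, Matrix.mul_one, hr2]
      module
    rw [transpose_mul, transpose_add, transpose_one, hr, Matrix.mul_assoc, ← Matrix.mul_assoc (1 + r),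
      e1]
    simp only [Matrix.smul_mul, Matrix.mul_smul, Matrix.mul_assoc]
  rw [e] at h
  have h2 := h.smul (show (0 : ℝ) ≤ 1 / 2 by norm_num)
  rwa [smul_smul, show (1 / 2 : ℝ) * 2 = 1 by norm_num, one_smul] at h2

omit [DecidableEq m] in
include hr hr2 in
theorem minus_psd (C : Matrix m n ℝ) : (C * (1 - r) * Cᵀ).PosSemidef := by
  have h := plus_psd (r := -r) (by rw [transpose_neg, hr]) (by rw [neg_mul_neg, hr2]) C
  rwa [← sub_eq_add_neg] at h

omit [DecidableEq m] hr in
include hr2 in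
/-- `C (1 + r)` intertwines the pinched Gram matrix and the Gram matrix of the half -/
theorem plus_inter (C : Matrix m n ℝ) :
    C * (1 + r) * (Cᵀ * C + r * (Cᵀ * C) * r) = C * (1 + r) * Cᵀ * (C * (1 + r)) := by
  have e : (1 + r) * (Cᵀ * C + r * (Cᵀ * C) * r) = (1 + r) * (Cᵀ * C) * (1 + r) := by
    have e1 : r * (r * (Cᵀ * C) * r) = Cᵀ * C * r := by
      rw [← Matrix.mul_assoc, ← Matrix.mul_assoc, hr2, Matrix.one_mul]
    simp only [Matrix.add_mul, Matrix.mul_add, Matrix.one_mul, Matrix.mul_one, e1]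
    abel
  rw [Matrix.mul_assoc, e]
  simp only [Matrix.mul_assoc]

omit [DecidableEq m] hr in
include hr2 in
theorem minus_inter (C : Matrix m n ℝ) :
    C * (1 - r) * (Cᵀ * C + r * (Cᵀ * C) * r) = C * (1 - r) * Cᵀ * (C * (1 - r)) := by
  have h := plus_inter (r := -r) (by rw [neg_mul_neg, hr2]) C
  simpa only [← sub_eq_add_neg, Matrix.neg_mul, Matrix.mul_neg, neg_neg] using h

include hr hr2 in
/-- the first order term of the middle step is the one of the outer step -/
theorem mid_first (C : Matrix m n ℝ) :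
    C * r * phi (Cᵀ * C + r * (Cᵀ * C) * r) * Cᵀ
      = dY (C * (1 + r) * Cᵀ) (C * (1 - r) * Cᵀ)
        - hdiff (C * (1 + r) * Cᵀ) (C * (1 - r) * Cᵀ) := by
  have hX : (Cᵀ * C).PosSemidef := psd_transpose_mul C
  have hXb : (Cᵀ * C + r * (Cᵀ * C) * r).PosSemidef := hX.add (refl_psd hX hr)
  have p0 := plus_psd hr hr2 C
  have p1 := minus_psd hr hr2 C
  have i0 := phi_inter hXb p0 (plus_inter hr2 C)
  have i1 := phi_inter hXb p1 (minus_inter hr2 C)
  have q0 := hP_eq' p0
  have q1 := hP_eq' p1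
  have q2 := hP_diff (C * (1 + r) * Cᵀ) (C * (1 - r) * Cᵀ)
  set W := phi (Cᵀ * C + r * (Cᵀ * C) * r)
  set Y0 := C * (1 + r) * Cᵀ
  set Y1 := C * (1 - r) * Cᵀ
  have a0 : C * (1 + r) * W * Cᵀ = hP Y0 := by
    rw [i0, Matrix.mul_assoc, q0]
  have a1 : C * (1 - r) * W * Cᵀ = hP Y1 := by
    rw [i1, Matrix.mul_assoc, q1]
  have e : C * (1 + r) * W * Cᵀ - C * (1 - r) * W * Cᵀ = (2 : ℝ) • (C * r * W * Cᵀ) := by
    simp only [Matrix.mul_add, Matrix.mul_sub, Matrix.add_mul, Matrix.sub_mul, Matrix.mul_one,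
      two_smul]
    abel
  rw [a0, a1, q2] at e
  exact (smul_right_injective _ (two_ne_zero (α := ℝ)) e).symm

include hr hr2 in
/-- **Middle change.** The slot `C` becomes `C + M C r`: the multipliers `1 + M` and `1 - M` on
the two halves of the middle cell. -/
theorem mid_change (C : Matrix m n ℝ) (M : Matrix m m ℝ) :
    (1 / 2) * GX (Cᵀ * C + r * (Cᵀ * C) * r)
        + 2 * (Mᵀ * (dY (C * (1 + r) * Cᵀ) (C * (1 - r) * Cᵀ)
          - hdiff (C * (1 + r) * Cᵀ) (C * (1 - r) * Cᵀ))).trace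
      ≤ (1 / 2) * GX ((C + M * C * r)ᵀ * (C + M * C * r)
        + r * ((C + M * C * r)ᵀ * (C + M * C * r)) * r) := by
  have hX : (Cᵀ * C).PosSemidef := psd_transpose_mul C
  have hX' : ((C + M * C * r)ᵀ * (C + M * C * r)).PosSemidef := psd_transpose_mul _
  have hXb : (Cᵀ * C + r * (Cᵀ * C) * r).PosSemidef := hX.add (refl_psd hX hr)
  have hXb' := hX'.add (refl_psd hX' hr)
  have ht := GX_tangent hXb hXb'
  have hW := phi_symm hXb
  have hWp := phi_psd hXb
  -- `phi` of the pinched matrix commutes with `r`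
  have hrW : r * phi (Cᵀ * C + r * (Cᵀ * C) * r) * r = phi (Cᵀ * C + r * (Cᵀ * C) * r) := by
    rw [← phi_refl hXb hr hr2]
    congr 1
    rw [Matrix.mul_add, Matrix.add_mul]
    have : r * (r * (Cᵀ * C) * r) * r = Cᵀ * C := refl_refl hr2 _
    rw [this, add_comm]
  have hf := mid_first hr hr2 C
  have hS : (dY (C * (1 + r) * Cᵀ) (C * (1 - r) * Cᵀ)
      - hdiff (C * (1 + r) * Cᵀ) (C * (1 - r) * Cᵀ))ᵀ
      = dY (C * (1 + r) * Cᵀ) (C * (1 - r) * Cᵀ)
        - hdiff (C * (1 + r) * Cᵀ) (C * (1 - r) * Cᵀ) := by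
    have p0 := plus_psd hr hr2 C
    have p1 := minus_psd hr hr2 C
    rw [transpose_sub, R.hdiff_symm p0 p1, dY, transpose_smul, transpose_sub, psd_isSymm p0,
      psd_isSymm p1]
  rw [← hf] at hS ⊢
  set W := phi (Cᵀ * C + r * (Cᵀ * C) * r) with hWdef
  set D := (C + M * C * r)ᵀ * (C + M * C * r) - Cᵀ * C with hD
  have e0 : (C + M * C * r)ᵀ * (C + M * C * r) + r * ((C + M * C * r)ᵀ * (C + M * C * r)) * r
      - (Cᵀ * C + r * (Cᵀ * C) * r) = D + r * D * r := by
    rw [hD]; noncomm_ring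
  rw [e0] at ht
  have e1 : (W * (D + r * D * r)).trace = 2 * (W * D).trace := by
    have : (W * (r * D * r)).trace = (W * D).trace := by
      calc (W * (r * D * r)).trace = ((W * r * D) * r).trace := by simp only [Matrix.mul_assoc]
        _ = (r * (W * r * D)).trace := trace_mul_comm _ _
        _ = ((r * W * r) * D).trace := by simp only [Matrix.mul_assoc]
        _ = (W * D).trace := by rw [hrW]
    rw [Matrix.mul_add, trace_add, this]; ring
  have e2 : D = r * Cᵀ * Mᵀ * C + Cᵀ * M * C * r + (M * C * r)ᵀ * (M * C * r) := by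
    rw [hD, transpose_add]
    have : (M * C * r)ᵀ = r * Cᵀ * Mᵀ := by
      rw [transpose_mul, transpose_mul, hr, Matrix.mul_assoc]
    rw [this]
    simp only [Matrix.mul_add, Matrix.add_mul, Matrix.mul_assoc]
    abel
  have e3 : (W * (Cᵀ * M * C * r)).trace = (M * (C * r * W * Cᵀ)).trace := by
    calc (W * (Cᵀ * M * C * r)).trace = ((W * Cᵀ) * (M * C * r)).trace := by
          simp only [Matrix.mul_assoc]
      _ = ((M * C * r) * (W * Cᵀ)).trace := trace_mul_comm _ _
      _ = _ := by simp only [Matrix.mul_assoc]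
  have e4 : (W * (r * Cᵀ * Mᵀ * C)).trace = (Mᵀ * (C * r * W * Cᵀ)ᵀ).trace := by
    have : (C * r * W * Cᵀ)ᵀ = C * W * r * Cᵀ := by
      rw [transpose_mul, transpose_mul, transpose_mul, transpose_transpose, hr, hW]
      simp only [Matrix.mul_assoc]
    rw [this]
    calc (W * (r * Cᵀ * Mᵀ * C)).trace = ((W * r * Cᵀ) * (Mᵀ * C)).trace := by
          simp only [Matrix.mul_assoc]
      _ = ((Mᵀ * C) * (W * r * Cᵀ)).trace := trace_mul_comm _ _
      _ = _ := by simp only [Matrix.mul_assoc]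
  have e5 : (M * (C * r * W * Cᵀ)).trace = (Mᵀ * (C * r * W * Cᵀ)).trace := by
    rw [← trace_transpose, transpose_mul, trace_mul_comm, hS]
  have h0 : 0 ≤ (W * ((M * C * r)ᵀ * (M * C * r))).trace :=
    trace_mul_nonneg hWp (psd_transpose_mul _)
  rw [e1, e2, Matrix.mul_add, Matrix.mul_add, trace_add, trace_add, e3, e4, hS, e5] at ht
  linarith

include hr hr2 in
/-- the row defect of the far side is at most the column defect -/
theorem delt_le_cd (C : Matrix m n ℝ) :
    (delt (C * (1 + r) * Cᵀ) (C * (1 - r) * Cᵀ)).trace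
      ≤ (phi (Cᵀ * C) * (r * phi (Cᵀ * C) * r)).trace := by
  have hX : (Cᵀ * C).PosSemidef := psd_transpose_mul C
  have hXr := refl_psd hX hr
  have hXb : (Cᵀ * C + r * (Cᵀ * C) * r).PosSemidef := hX.add hXr
  have hY : (C * Cᵀ).PosSemidef := psd_mul_transpose C
  have p0 := plus_psd hr hr2 C
  have p1 := minus_psd hr hr2 C
  -- trace of `phi` on both sides
  have t0 : (phi (C * Cᵀ)).trace = (phi (Cᵀ * C)).trace := by
    have i := res_inter hX hY (B := C) (by rw [Matrix.mul_assoc])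
    rw [← mul_res_phi hY, ← mul_res_phi hX, Matrix.mul_assoc, trace_mul_comm, Matrix.mul_assoc,
      ← i, Matrix.mul_assoc]
  have i0 := res_inter hXb p0 (plus_inter hr2 C)
  have i1 := res_inter hXb p1 (minus_inter hr2 C)
  have s0 : (phi (C * (1 + r) * Cᵀ)).trace
      = (Cᵀ * C * (1 + r) * res (Cᵀ * C + r * (Cᵀ * C) * r)).trace := by
    rw [← res_mul_phi p0]
    calc (res (C * (1 + r) * Cᵀ) * (C * (1 + r) * Cᵀ)).trace
        = ((res (C * (1 + r) * Cᵀ) * (C * (1 + r))) * Cᵀ).trace := by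
          simp only [Matrix.mul_assoc]
      _ = ((C * (1 + r) * res (Cᵀ * C + r * (Cᵀ * C) * r)) * Cᵀ).trace := by rw [i0]
      _ = (Cᵀ * (C * (1 + r) * res (Cᵀ * C + r * (Cᵀ * C) * r))).trace := trace_mul_comm _ _
      _ = _ := by simp only [Matrix.mul_assoc]
  have s1 : (phi (C * (1 - r) * Cᵀ)).trace
      = (Cᵀ * C * (1 - r) * res (Cᵀ * C + r * (Cᵀ * C) * r)).trace := by
    rw [← res_mul_phi p1]
    calc (res (C * (1 - r) * Cᵀ) * (C * (1 - r) * Cᵀ)).trace
        = ((res (C * (1 - r) * Cᵀ) * (C * (1 - r))) * Cᵀ).trace := by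
          simp only [Matrix.mul_assoc]
      _ = ((C * (1 - r) * res (Cᵀ * C + r * (Cᵀ * C) * r)) * Cᵀ).trace := by rw [i1]
      _ = (Cᵀ * (C * (1 - r) * res (Cᵀ * C + r * (Cᵀ * C) * r))).trace := trace_mul_comm _ _
      _ = _ := by simp only [Matrix.mul_assoc]
  set X := Cᵀ * C with hXdef
  set Q := res (X + r * X * r) with hQ
  -- `r Q r = Q`
  have hrQ : r * Q * r = Q := by
    rw [hQ, ← res_refl hXb hr hr2]
    congr 1
    rw [Matrix.mul_add, Matrix.add_mul]
    have : r * (r * X * r) * r = X := refl_refl hr2 _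
    rw [this, add_comm]
  have hsum : (X * (1 + r) * Q).trace + (X * (1 - r) * Q).trace = (phi (X + r * X * r)).trace := by
    have e1 : (r * X * r * Q).trace = (X * Q).trace := by
      calc (r * X * r * Q).trace = (r * (X * r * Q)).trace := by simp only [Matrix.mul_assoc]
        _ = ((X * r * Q) * r).trace := trace_mul_comm _ _
        _ = (X * (r * Q * r)).trace := by simp only [Matrix.mul_assoc]
        _ = _ := by rw [hrQ]
    rw [← mul_res_phi hXb, ← hQ, Matrix.add_mul, trace_add, e1]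
    simp only [Matrix.mul_add, Matrix.mul_sub, Matrix.add_mul, Matrix.sub_mul, Matrix.mul_one,
      trace_add, trace_sub]
    ring
  have hG := (Gam_psd hX hXr).trace_nonneg
  rw [Gam_eq] at hG
  simp only [trace_add, trace_sub] at hG
  have e3 : phi (r * X * r) = r * phi X * r := phi_refl hX hr hr2
  have e4 : (r * phi X * r).trace = (phi X).trace := by
    rw [Matrix.mul_assoc, trace_mul_comm, Matrix.mul_assoc, hr2, Matrix.mul_one]
  rw [e3, e4, trace_mul_comm (r * phi X * r) (phi X)] at hG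
  have eY : (1 / 2 : ℝ) • (C * (1 + r) * Cᵀ + C * (1 - r) * Cᵀ) = C * Cᵀ := by
    have : C * (1 + r) * Cᵀ + C * (1 - r) * Cᵀ = (2 : ℝ) • (C * Cᵀ) := by
      simp only [Matrix.mul_add, Matrix.mul_sub, Matrix.add_mul, Matrix.sub_mul, Matrix.mul_one,
        two_smul]
      abel
    rw [this, smul_smul, show (1 / 2 : ℝ) * 2 = 1 by norm_num, one_smul]
  rw [delt, eY, trace_sub, trace_smul, trace_add, smul_eq_mul, s0, s1, hsum, t0]
  linarith

end mid

end

end Vale.Agent.P141.H505
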