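import Vale.Agent.P141.H389.PlaneV
import Vale.Agent.P141.H258.Wt
import Vale.Agent.P141.H585.PairCh
import Vale.Agent.P141.H28.Ridge
import Vale.Agent.P141.H609.NodeStep
import Vale.Agent.P141.H505.Node

/-!
# P141, line (A): skeleton of the moving stack (TF and TI)

Named propositions (leaves) and the assembly. Variables: `x` = x1 (row of the moving matrix),
`z` = x3, `y` = x2. Hub x3: middle x3, outer x1 / x2. Hub x1: middle x1 (with label), outer x3 / x2.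
-/

namespace Vale.Agent.P141.H505.Skel

open Finset Matrix Vale.Agent.P141.PL Vale.Agent.P141.PL.H103 Vale.Agent.P141.H103
open Vale.Agent.P141.PL.H804 Vale.Agent.P141.PL.H588
open Vale.Agent.P141.H389 Vale.Agent.P141.H258 Vale.Agent.P141.H585.PairCh
open Vale.Agent.P075

noncomputable section

/-! ## 1. Abstract leaves -/

/-- **L1 (336 `TV_stack`), both hubs.** -/
def TVStack : Prop :=
  ∀ {ι : ℕ → Type} [∀ k, Fintype (ι k)] [∀ k, DecidableEq (ι k)] (k₀ N : ℕ) (R S : ℤ) (μ : ℝ)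
    (J : ℕ) (W X₀ X₁ M₀ M₁ : ∀ k, ℕ → ℤ → ℤ → Matrix (ι k) (ι k) ℝ) (q p : ℕ → ℕ → ℤ → ℤ → ℝ)
    (H Qo Qm : ℝ), k₀ ≤ N → 0 < μ →
    (∀ k a n m, (W k a n m).PosSemidef) → (∀ k a n m, (X₀ k a n m).PosSemidef) →
    (∀ k a n m, (X₁ k a n m).PosSemidef) →
    (∀ k a n m, k₀ ≤ k → k ≤ a → a < N →
      W k (a + 1) n m = (1 / 2 : ℝ) • (X₀ k a n m + X₁ k a n m)) →
    (∀ k a n m, k₀ ≤ k → k ≤ a → a < N → W k a (2 * n) m = mv (M₀ k a n m) (X₀ k a n m)) →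
    (∀ k a n m, k₀ ≤ k → k ≤ a → a < N → W k a (2 * n + 1) m = mv (M₁ k a n m) (X₁ k a n m)) →
    (∀ k a n m, k₀ ≤ k → k ≤ a → a < N →
      SG μ J (W k (a + 1) n m) + (1 / 4) * SD μ J (X₀ k a n m) (X₁ k a n m)
        ≤ (1 / 2) * (SG μ J (W k a (2 * n) m) + SG μ J (W k a (2 * n + 1) m)) + q k a n m) →
    (∀ k a n m, k₀ ≤ k → k ≤ a → a < N →
      (M₀ k a n m * X₀ k a n m * (M₀ k a n m)ᵀ).trace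
        + (M₁ k a n m * X₁ k a n m * (M₁ k a n m)ᵀ).trace ≤ q k a n m) →
    (∀ k a n m, k₀ ≤ k → k + 1 ≤ a → a ≤ N → SG μ J (W (k + 1) a n m)
      ≤ (1 / 2) * (SG μ J (W k a n (2 * m)) + SG μ J (W k a n (2 * m + 1))) + p k a n m) →
    (∀ k a, k₀ ≤ k → k ≤ a → a ≤ N → (2 : ℝ) ^ a * 2 ^ k * ∑ m ∈ iv (N - k) S,
      ∑ n ∈ iv (N - a) R, (W k a n m).trace ≤ H) →
    (∀ r, ∑ k ∈ Ico k₀ (N - r), (2 : ℝ) ^ (k + r + 1) * 2 ^ k * ∑ m ∈ iv (N - k) S,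
      ∑ n ∈ iv (N - (k + r + 1)) R, q k (k + r) n m ≤ Qo) →
    (∀ r, ∑ k ∈ Ico k₀ (N - r), (2 : ℝ) ^ (k + 1 + r) * 2 ^ (k + 1) * ∑ m ∈ iv (N - (k + 1)) S,
      ∑ n ∈ iv (N - (k + 1 + r)) R, p k (k + 1 + r) n m ≤ Qm) →
    ∀ j ≤ J, TV k₀ N R S (fun k a n m => phs ((μ / 4 ^ j)⁻¹) (W k a n m))
        ≤ 1300 * (μ / 4 ^ j)⁻¹ * ((J + 1) * H + Qo + Qm) ∧
      ∀ r, ∑ k ∈ Ico k₀ (N - r), (2 : ℝ) ^ (k + r + 1) * 2 ^ k * ∑ m ∈ iv (N - k) S,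
        ∑ n ∈ iv (N - (k + r + 1)) R, SD μ J (X₀ k (k + r) n m) (X₁ k (k + r) n m)
        ≤ 4 * ((J + 1) * H + Qo + Qm)

/-! ## 2. The data -/

variable {κ : Type} [Fintype κ] [DecidableEq κ]

/-- The weight of the slot at the row `x` and the cell `m` of scale `k` of `z`; children
`Th + Nn ± M`, `Nm` the negative part of the drift. TF : `Th = wt β R`, `M = R D + D R`,
`Nn = D * D`, `Nm = 0`. TI : `Th = β • 1 + Theta`, `M = a`, `Nn = -eb`, `Nm = eb`. -/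
structure Wgt (N : ℕ) (β : ℝ) (Th Nn M Nm : ℤ → ℕ → ℤ → Matrix κ κ ℝ) : Prop where
  pos : 0 < β
  ge : ∀ x k m, (Th x k m - β • (1 : Matrix κ κ ℝ)).PosSemidef
  symM : ∀ x k m, (M x k m)ᵀ = M x k m
  symN : ∀ x k m, (Nn x k m)ᵀ = Nn x k m
  left : ∀ x k m, k < N → Th x k (2 * m) = Th x (k + 1) m + Nn x (k + 1) m + M x (k + 1) m
  right : ∀ x k m, k < N → Th x k (2 * m + 1) = Th x (k + 1) m + Nn x (k + 1) m - M x (k + 1) m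
  nm : ∀ x k m, (Nm x k m).PosSemidef
  np : ∀ x k m, (Nn x k m + Nm x k m).PosSemidef

/-- hub x3: the Gram matrices of the stack `Th ^ (1/2) c` -/
def W3 (c : ℤ → ℤ → κ → ℝ) (Th : ℤ → ℕ → ℤ → Matrix κ κ ℝ) (k : ℕ) :
    ℕ → ℤ → ℤ → Matrix (Ix k) (Ix k) ℝ :=
  fun a n m => QW a k c (fun x => Th x k m) n m

/-- energy of the slot at scale `k` (same for all outer scales) -/
def enW (N : ℕ) (T S : ℤ) (c : ℤ → ℤ → κ → ℝ) (Th : ℤ → ℕ → ℤ → Matrix κ κ ℝ) (k : ℕ) : ℝ :=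
  ∑ x ∈ iv N T, ∑ z ∈ iv N S, c x z ⬝ᵥ Th x k (ix k z) *ᵥ c x z

/-- quadratic variation of the weight at the scale `k`: `|Th^(-1/2) M c|²` at parent and children -/
def enM (N : ℕ) (T S : ℤ) (c : ℤ → ℤ → κ → ℝ) (Th Nn M : ℤ → ℕ → ℤ → Matrix κ κ ℝ) (k : ℕ) : ℝ :=
  ∑ x ∈ iv N T, ∑ z ∈ iv N S,
    ((M x (k + 1) (ix (k + 1) z) *ᵥ c x z) ⬝ᵥ (Th x (k + 1) (ix (k + 1) z))⁻¹ *ᵥ
        (M x (k + 1) (ix (k + 1) z) *ᵥ c x z)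
      + ((M x (k + 1) (ix (k + 1) z) + Nn x (k + 1) (ix (k + 1) z)) *ᵥ c x z) ⬝ᵥ
        (Th x k (ix k z))⁻¹ *ᵥ ((M x (k + 1) (ix (k + 1) z) + Nn x (k + 1) (ix (k + 1) z)) *ᵥ c x z)
      + ((M x (k + 1) (ix (k + 1) z) - Nn x (k + 1) (ix (k + 1) z)) *ᵥ c x z) ⬝ᵥ
        (Th x k (ix k z))⁻¹ *ᵥ ((M x (k + 1) (ix (k + 1) z) - Nn x (k + 1) (ix (k + 1) z)) *ᵥ c x z))

/-- first order cost of the negative drift -/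
def enN (N : ℕ) (T S : ℤ) (c : ℤ → ℤ → κ → ℝ) (Nm : ℤ → ℕ → ℤ → Matrix κ κ ℝ) (k : ℕ) : ℝ :=
  ∑ x ∈ iv N T, ∑ z ∈ iv N S, c x z ⬝ᵥ Nm x (k + 1) (ix (k + 1) z) *ᵥ c x z

/-- The numbers of the slot: `E` bounds the energy at every scale, the quadratic variation and the
drift; `cC` is the cap of the stack. -/
structure Num (k₀ N : ℕ) (T S : ℤ) (c : ℤ → ℤ → κ → ℝ)
    (Th Nn M Nm : ℤ → ℕ → ℤ → Matrix κ κ ℝ) (E cC : ℝ) : Prop where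
  en : ∀ k, k₀ ≤ k → k ≤ N → enW N T S c Th k ≤ E
  var : ∑ k ∈ Ico k₀ N, enM N T S c Th Nn M k ≤ E
  dr : ∑ k ∈ Ico k₀ N, enN N T S c Nm k ≤ E
  cap : ∀ k a n m, k₀ ≤ k → k₀ ≤ a → k ≤ N → a ≤ N → n ∈ iv (N - a) T → m ∈ iv (N - k) S →
    (cC ^ 2 • (1 : Matrix (Ix k) (Ix k) ℝ) - W3 c Th k a n m).PosSemidef

/-! ## 3. Own energies -/

/-- **L2 (293, F5): own of the stack, hub x3, all levels.** -/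
def Own3 (K : ℝ) : Prop :=
  ∀ {κ : Type} [Fintype κ] [DecidableEq κ] (k₀ N : ℕ) (T S : ℤ) (β : ℝ) (c : ℤ → ℤ → κ → ℝ)
    (Th Nn M Nm : ℤ → ℕ → ℤ → Matrix κ κ ℝ) (E cC s2 : ℝ) (J : ℕ), k₀ ≤ N →
    Wgt N β Th Nn M Nm → Num k₀ N T S c Th Nn M Nm E cC → 0 < s2 → cC ^ 2 ≤ 4 ^ J * s2 →
    TV k₀ N T S (fun k a n m => phs s2 (W3 c Th k a n m)) ≤ K * (J + 1) ^ 3 * (s2 * E) ∧
    ∑ k ∈ Ico k₀ N, (2 : ℝ) ^ (k + 1) * 2 ^ k * ∑ m ∈ iv (N - k) S, ∑ n ∈ iv (N - (k + 1)) T,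
      dls s2 (W3 c Th k k (2 * n) m) (W3 c Th k k (2 * n + 1) m) ≤ K * (J + 1) ^ 3 * (s2 * E) ∧
    ∑ k ∈ Ico k₀ N, (4 : ℝ) ^ (k + 1) * ∑ m ∈ iv (N - (k + 1)) S, ∑ n ∈ iv (N - (k + 1)) T,
      (phs s2 (W3 c Th (k + 1) (k + 1) n m) *
        (hd (k + 1) * phs s2 (W3 c Th (k + 1) (k + 1) n m) * hd (k + 1))).trace
      ≤ K * (J + 1) ^ 3 * (s2 * E)


/-! ## 4. The pair `(A, C~)`, hub x3 (`r1 r2 r3` roots of x1, x2, x3) -/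

/-- energy of a static scalar slot -/
def enA (N : ℕ) (R S : ℤ) (A : ℤ → ℤ → ℝ) : ℝ := ∑ y ∈ iv N R, ∑ z ∈ iv N S, A y z ^ 2

/-- cap of a static scalar slot -/
def CapA (k₀ N : ℕ) (R S : ℤ) (A : ℤ → ℤ → ℝ) (t2 : ℝ) : Prop :=
  ∀ k a n m, k₀ ≤ k → k ≤ a → a ≤ N → n ∈ iv (N - a) R → m ∈ iv (N - k) S →
    (t2 • (1 : Matrix (Ix k) (Ix k) ℝ) - PA A k a n m).PosSemidef

/-- **L3 (28 `mid_weight`, saturated partner).** `P` any partner matrix, `P ≤ y2`. Halves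
`c0 c1`; `X = (1/2) cᵀ Θ c`, `P' b` the partner matrices of the halves with
`2 P_bb ≤ P' b + E b`. -/
def MidWeight (K : ℝ) : Prop :=
  ∀ {ι ρ : Type} [Fintype ι] [DecidableEq ι] [Fintype ρ] [DecidableEq ρ]
    (c0 c1 : Matrix ρ ι ℝ) (Θ Θ0 Θ1 Nn M Nm : Matrix ρ ρ ℝ) (P : Matrix (ι ⊕ ι) (ι ⊕ ι) ℝ)
    (P0 P1 E0 E1 : Matrix ι ι ℝ) (y2 x2 : ℝ), 0 < x2 → 0 < y2 → Θ.PosDef → Θ0.PosDef →
    Θ1.PosDef → Mᵀ = M → Nnᵀ = Nn → Θ0 = Θ + Nn + M → Θ1 = Θ + Nn - M → Nm.PosSemidef →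
    (Nn + Nm).PosSemidef → P.PosSemidef → (y2 • (1 : Matrix (ι ⊕ ι) (ι ⊕ ι) ℝ) - P).PosSemidef →
    P0.PosSemidef → P1.PosSemidef → E0.PosSemidef → E1.PosSemidef →
    (P0 + E0 - (2 : ℝ) • P.toBlocks₁₁).PosSemidef → (P1 + E1 - (2 : ℝ) • P.toBlocks₂₂).PosSemidef →
    let X := (1 / 2 : ℝ) • ((fromCols c0 c1)ᵀ * Θ * fromCols c0 c1)
    (P * phs x2 X).trace + (1 / 4) * (P * (rad ι * phs x2 X * rad ι)).trace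
      ≤ (1 / 2) * ((P0 * phs x2 (c0ᵀ * Θ0 * c0)).trace + (P1 * phs x2 (c1ᵀ * Θ1 * c1)).trace)
        + K * y2 * (x2⁻¹ * (phs x2 X * (rad ι * phs x2 X * rad ι)).trace
          + (c0ᵀ * (M * Θ⁻¹ * M) * c0).trace + (c1ᵀ * (M * Θ⁻¹ * M) * c1).trace
          + (c0ᵀ * ((Nn + M) * Θ0⁻¹ * (Nn + M)) * c0).trace
          + (c1ᵀ * ((Nn - M) * Θ1⁻¹ * (Nn - M)) * c1).trace
          + (c0ᵀ * Nm * c0).trace + (c1ᵀ * Nm * c1).trace)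
        + K * x2 * (E0.trace + E1.trace)

/-- **L4 (389, F6A): both slots saturated**, `y2`, `x2` squares of the levels of `A`, `C~`. -/
def PairAC (K : ℝ) : Prop :=
  ∀ {κ : Type} [Fintype κ] [DecidableEq κ] (k₀ N : ℕ) (r1 r2 r3 : ℤ) (pl : ℕ → ℤ) (β : ℝ)
    (A : ℤ → ℤ → ℝ) (c : ℤ → ℤ → κ → ℝ) (Th Nn M Nm : ℤ → ℕ → ℤ → Matrix κ κ ℝ)
    (E cC y2 x2 : ℝ) (J : ℕ), k₀ ≤ N → Pl pl → Wgt N β Th Nn M Nm →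
    Num k₀ N r1 r3 c Th Nn M Nm E cC → 0 < x2 → 0 < y2 → cC ^ 2 ≤ 4 ^ J * x2 →
    ∑ k ∈ Ico k₀ N, GW N r2 r3 r1 (k + 1) (pl (k + 1)) (fun n n' m =>
      (phs y2 (PA A (k + 1) (k + 1) n m) * (hd (k + 1) *
        phs x2 (W3 c Th (k + 1) (k + 1) n' m) * hd (k + 1))).trace)
      ≤ K * (J + 1) ^ 3 * (√(x2 * E * (y2 * enA N r2 r3 A)) + y2 * E + x2 * enA N r2 r3 A)

/-- **L4r (389, F6A as frozen in 15344): raw `A` with the cap `t2`** (levels of `C~` above). -/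
def PairACraw (K : ℝ) : Prop :=
  ∀ {κ : Type} [Fintype κ] [DecidableEq κ] (k₀ N : ℕ) (r1 r2 r3 : ℤ) (pl : ℕ → ℤ) (β : ℝ)
    (A : ℤ → ℤ → ℝ) (c : ℤ → ℤ → κ → ℝ) (Th Nn M Nm : ℤ → ℕ → ℤ → Matrix κ κ ℝ)
    (E cC t2 x2 : ℝ) (J : ℕ), k₀ ≤ N → Pl pl → Wgt N β Th Nn M Nm →
    Num k₀ N r1 r3 c Th Nn M Nm E cC → 0 < x2 → 0 < t2 → CapA k₀ N r2 r3 A t2 →
    cC ^ 2 ≤ 4 ^ J * x2 →
    ∑ k ∈ Ico k₀ N, GW N r2 r3 r1 (k + 1) (pl (k + 1)) (fun n n' m =>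
      (PA A (k + 1) (k + 1) n m * (hd (k + 1) *
        phs x2 (W3 c Th (k + 1) (k + 1) n' m) * hd (k + 1))).trace)
      ≤ K * (J + 1) ^ 3 * (√(x2 * E * (t2 * enA N r2 r3 A)) + t2 * E)

/-! ## 5. Hub x1: the pair `(B, C~)` -/

/-- A factor `L` of the weight (label type `l` of the stack), the slot vector `g = Lᵀ v` and its
moves. TF : `L = (R ; √β)`, `v = (e ; 0)`, `g = R e`, `gm = D e`, `gn = 0`. TI : `L = Th^(1/2)`,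
`v = Th^(-1/2) Theta e`, `g = Theta e`, `gm = a e`, `gn = - eb e`. -/
structure Slot {l : Type} [Fintype l] (N : ℕ) (Th : ℤ → ℕ → ℤ → Matrix κ κ ℝ)
    (L : ℤ → ℕ → ℤ → Matrix l κ ℝ) (v : ℤ → ℕ → ℤ → l → ℝ) (g gn gm : ℤ → ℕ → ℤ → κ → ℝ) :
    Prop where
  LtL : ∀ x k m, (L x k m)ᵀ * L x k m = Th x k m
  Ltv : ∀ x k m, (L x k m)ᵀ *ᵥ v x k m = g x k m
  v1 : ∀ x k m, v x k m ⬝ᵥ v x k m ≤ 1
  left : ∀ x k m, k < N → g x k (2 * m) = g x (k + 1) m + gn x (k + 1) m + gm x (k + 1) m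
  right : ∀ x k m, k < N → g x k (2 * m + 1) = g x (k + 1) m + gn x (k + 1) m - gm x (k + 1) m

/-- hub x1, node of scale `k`, x1-cell `m`, x3-cell `n`: Gram matrix of the stack -/
def W1 {l : Type} (c : ℤ → ℤ → κ → ℝ) (L : ℤ → ℕ → ℤ → Matrix l κ ℝ) (k : ℕ) (n m : ℤ) :
    Matrix (Ix k × l) (Ix k × l) ℝ := fun i j =>
  ((2 : ℝ) ^ k * 2 ^ k)⁻¹ * ∑ z ∈ iv k n,
    (L (2 ^ k * m + val k i.1) k n *ᵥ c (2 ^ k * m + val k i.1) z) i.2 *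
      (L (2 ^ k * m + val k j.1) k n *ᵥ c (2 ^ k * m + val k j.1) z) j.2

/-- hub x1: Gram matrix of `B~ = v B`, x2-cell `n'` -/
def WB {l : Type} (B : ℤ → ℤ → ℝ) (v : ℤ → ℕ → ℤ → l → ℝ) (k : ℕ) (n n' m : ℤ) :
    Matrix (Ix k × l) (Ix k × l) ℝ := fun i j =>
  ((2 : ℝ) ^ k * 2 ^ k)⁻¹ * ∑ y ∈ iv k n',
    (v (2 ^ k * m + val k i.1) k n i.2 * B (2 ^ k * m + val k i.1) y) *
      (v (2 ^ k * m + val k j.1) k n j.2 * B (2 ^ k * m + val k j.1) y)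

/-- `hd` with labels -/
def hdl (l : Type) [DecidableEq l] (k : ℕ) : Matrix (Ix k × l) (Ix k × l) ℝ := fun i j =>
  if i.2 = j.2 then hd k i.1 j.1 else 0

/-- variation of the slot vector against `B` (plane sum): bound `EB` -/
def varB (k₀ N : ℕ) (r1 r2 r3 : ℤ) (pl : ℕ → ℤ) (B : ℤ → ℤ → ℝ)
    (Th : ℤ → ℕ → ℤ → Matrix κ κ ℝ) (gm gn : ℤ → ℕ → ℤ → κ → ℝ) : ℝ :=
  ∑ k ∈ Ico k₀ N, GW N r2 r1 r3 (k + 1) (pl (k + 1)) (fun n' n m =>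
    ((2 : ℝ) ^ (k + 1) * 2 ^ (k + 1))⁻¹ * ∑ x ∈ iv (k + 1) m, ∑ y ∈ iv (k + 1) n',
      B x y ^ 2 * (gm x (k + 1) n ⬝ᵥ (Th x (k + 1) n)⁻¹ *ᵥ gm x (k + 1) n
        + gn x (k + 1) n ⬝ᵥ (Th x (k + 1) n)⁻¹ *ᵥ gn x (k + 1) n))

/-- **L5 (585 + 797, F6B / F5'): both slots saturated.** -/
def PairBC (K : ℝ) : Prop :=
  ∀ {κ l : Type} [Fintype κ] [DecidableEq κ] [Fintype l] [DecidableEq l] (k₀ N : ℕ)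
    (r1 r2 r3 : ℤ) (pl : ℕ → ℤ) (β : ℝ) (B : ℤ → ℤ → ℝ) (c : ℤ → ℤ → κ → ℝ)
    (Th Nn M Nm : ℤ → ℕ → ℤ → Matrix κ κ ℝ) (L : ℤ → ℕ → ℤ → Matrix l κ ℝ)
    (v : ℤ → ℕ → ℤ → l → ℝ) (g gn gm : ℤ → ℕ → ℤ → κ → ℝ) (E EB cC y2 x2 : ℝ) (J : ℕ),
    k₀ ≤ N → Pl pl → Wgt N β Th Nn M Nm → Slot N Th L v g gn gm →
    Num k₀ N r1 r3 c Th Nn M Nm E cC → enA N r1 r2 B ≤ EB →
    varB k₀ N r1 r2 r3 pl B Th gm gn ≤ EB → 0 < x2 → 0 < y2 → cC ^ 2 ≤ 4 ^ J * x2 →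
    y2 * E ≤ x2 * EB →
    ∑ k ∈ Ico k₀ N, GW N r2 r1 r3 (k + 1) (pl (k + 1)) (fun n' n m =>
      (phs y2 (WB B v (k + 1) n n' m) * (hdl l (k + 1) *
        phs x2 (W1 c L (k + 1) n m) * hdl l (k + 1))).trace)
      ≤ K * (J + 1) ^ 3 * (√(x2 * E * (y2 * EB)) + y2 * E + x2 * EB)

/-- **L5r: raw `B` with the cap `t2`** (levels of `C~` above). -/
def PairBCraw (K : ℝ) : Prop :=
  ∀ {κ l : Type} [Fintype κ] [DecidableEq κ] [Fintype l] [DecidableEq l] (k₀ N : ℕ)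
    (r1 r2 r3 : ℤ) (pl : ℕ → ℤ) (β : ℝ) (B : ℤ → ℤ → ℝ) (c : ℤ → ℤ → κ → ℝ)
    (Th Nn M Nm : ℤ → ℕ → ℤ → Matrix κ κ ℝ) (L : ℤ → ℕ → ℤ → Matrix l κ ℝ)
    (v : ℤ → ℕ → ℤ → l → ℝ) (g gn gm : ℤ → ℕ → ℤ → κ → ℝ) (E EB cC t2 x2 : ℝ) (J : ℕ),
    k₀ ≤ N → Pl pl → Wgt N β Th Nn M Nm → Slot N Th L v g gn gm →
    Num k₀ N r1 r3 c Th Nn M Nm E cC → enA N r1 r2 B ≤ EB →
    varB k₀ N r1 r2 r3 pl B Th gm gn ≤ EB → 0 < x2 → 0 < t2 →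
    CapA k₀ N r2 r1 (fun y x => B x y) t2 → cC ^ 2 ≤ 4 ^ J * x2 → t2 * E ≤ x2 * EB →
    ∑ k ∈ Ico k₀ N, GW N r2 r1 r3 (k + 1) (pl (k + 1)) (fun n' n m =>
      (WB B v (k + 1) n n' m * (hdl l (k + 1) *
        phs x2 (W1 c L (k + 1) n m) * hdl l (k + 1))).trace)
      ≤ K * (J + 1) ^ 3 * (√(x2 * E * (t2 * EB)) + t2 * E)


/-! ## 6. The stage sum over arbitrary hub index types -/

/-- raw pair sum, `h k` symmetric involutions, arbitrary index types -/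
def RPg {ι : ℕ → Type} [∀ k, Fintype (ι k)] [∀ k, DecidableEq (ι k)]
    (h : ∀ k, Matrix (ι k) (ι k) ℝ) (N : ℕ) (s : ℕ → Finset Pt) (x y : ℝ)
    (F H : ∀ k, Pt → Matrix (ι k) (ι k) ℝ) : ℝ :=
  ∑ k ∈ Icc 1 N, ∑ m ∈ s k, x ^ 2 * y ^ 2 *
    (4 ^ k * M2 (h k) ((x ^ 2)⁻¹ * (4 ^ k)⁻¹) ((y ^ 2)⁻¹ * (4 ^ k)⁻¹) (F k m) (H k m))

/-- **L6 (609): `stageN` for arbitrary index types and involutions, and with the factor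
`√(τ / h)` in the pair sums** (the number of levels `J + 1` of the stack grows like
`log (1 / h)`; `(J + 1) ^ 3 ≤ C √(τ / h) ...`). -/
def StageG (K : ℝ) : Prop :=
  ∀ {ι : ℕ → Type} [∀ k, Fintype (ι k)] [∀ k, DecidableEq (ι k)]
    (h : ∀ k, Matrix (ι k) (ι k) ℝ) (N : ℕ) (s : ℕ → Finset Pt) (cA cB cC : ℝ)
    (FA FB FC : ∀ k, Pt → Matrix (ι k) (ι k) ℝ), (∀ k, (h k)ᵀ = h k) → (∀ k, h k * h k = 1) →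
    0 < cA → 0 < cB → 0 < cC →
    (∀ k ∈ Icc 1 N, ∀ m ∈ s k, (1 - gramC ((cA ^ 2)⁻¹ * (4 ^ k)⁻¹) (FA k m)).PosSemidef) →
    (∀ k ∈ Icc 1 N, ∀ m ∈ s k, (1 - gramC ((cB ^ 2)⁻¹ * (4 ^ k)⁻¹) (FB k m)).PosSemidef) →
    (∀ k ∈ Icc 1 N, ∀ m ∈ s k, (1 - gramC ((cC ^ 2)⁻¹ * (4 ^ k)⁻¹) (FC k m)).PosSemidef) →
    ∀ {θ τ P₀ PA PB κ' : ℝ}, 0 < θ → cA ≤ τ → cB ≤ τ → 0 ≤ P₀ → 0 ≤ PA → 0 ≤ PB → 0 ≤ κ' →
    (∀ x, 0 < x → x ≤ τ → RPg h N s x x FA FB ≤ P₀ * (x ^ 2 * √(τ / x))) →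
    (∀ x, 0 < x → x ≤ τ → RPg h N s x (θ * x) FB FC ≤ PB * (x ^ 2 * √(τ / x))) →
    (∀ x, 0 < x → x ≤ τ → RPg h N s (θ * x) x FC FA ≤ PA * (x ^ 2 * √(τ / x))) →
    (∀ x, θ * τ ≤ x → x ≤ cC → √(RPg h N s cB x FB FC * RPg h N s x cA FC FA) ≤ κ' * x) →
    ∀ {L₀ : ℕ}, cC / 2 ^ (L₀ - 1) ≤ θ * τ →
    ∑ k ∈ Icc 1 N, ∑ m ∈ s k, |(2 ^ k : ℝ)⁻¹ * T3 (h k) (FA k m) (FB k m) (FC k m)| ≤
      K * (√(P₀ * PA) + √(P₀ * PB) + √(PA * PB) / θ) * τ + 6 * κ' * L₀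

/-! ## 7. Output -/

/-- the moving scalar slot `w_k(x1, x3) = g(x1; cell of x3) · c(x1, x3)` -/
def slotW (c : ℤ → ℤ → κ → ℝ) (g : ℤ → ℕ → ℤ → κ → ℝ) (k : ℕ) (x z : ℤ) : ℝ :=
  g x k (ix k z) ⬝ᵥ c x z

/-- **Output of the stack part**: the sum of the fluxes of the moving slot. `E` = `Num`,
`EB` = energy and variation of `B`, `EA` = energy of `A`; `J` levels; all in product form. -/
def StackOut (K : ℝ) : Prop :=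
  ∀ {κ l : Type} [Fintype κ] [DecidableEq κ] [Fintype l] [DecidableEq l] [Nonempty l] (N : ℕ)
    (r1 r2 r3 : ℤ) (pl : ℕ → ℤ) (s : ℕ → Finset Pt) (β : ℝ) (A B : ℤ → ℤ → ℝ)
    (c : ℤ → ℤ → κ → ℝ) (Th Nn M Nm : ℤ → ℕ → ℤ → Matrix κ κ ℝ) (L : ℤ → ℕ → ℤ → Matrix l κ ℝ)
    (v : ℤ → ℕ → ℤ → l → ℝ) (g gn gm : ℤ → ℕ → ℤ → κ → ℝ) (E EA EB cA cB cC θ : ℝ) (J : ℕ),
    Pl pl → (∀ k ∈ Icc 1 N, ∀ p ∈ s k, p.1 ∈ iv (N - k) r1 ∧ p.2.1 ∈ iv (N - k) r2 ∧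
      p.2.2 ∈ iv (N - k) r3 ∧ p.1 + p.2.1 + p.2.2 = pl k) →
    Wgt N β Th Nn M Nm → Slot N Th L v g gn gm → Num 0 N r1 r3 c Th Nn M Nm E cC →
    0 < cA → 0 < cB → 0 < cC → CapA 0 N r2 r3 A (cA ^ 2) →
    CapA 0 N r2 r1 (fun y x => B x y) (cB ^ 2) → enA N r2 r3 A ≤ EA → enA N r1 r2 B ≤ EB →
    EA ≤ EB → E ≤ EB → varB 0 N r1 r2 r3 pl B Th gm gn ≤ EB → 0 < θ → θ ≤ 1 →
    E ≤ θ ^ 2 * EB → cC ≤ 2 ^ J * (θ * max cA cB) →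
    ∑ k ∈ Icc 1 N, (2 ^ k : ℝ)⁻¹ * ∑ p ∈ s k, |tri k p B A (slotW c g k)| ≤
      K * (J + 1) ^ 7 * max cA cB * (√(EB * (θ * √(E * EB) + E + θ ^ 2 * EB))
        + (θ * √(E * EB) + E + θ ^ 2 * EB) / θ)

end

end Vale.Agent.P141.H505.Skel
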